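import Mathlib

/-!
# Schoenhage-Nussbaumer multiplication over `Z / 2^P`: definitions and Horner calculus

* `hor z φ l` : Horner evaluation of a list, `ev z u` for a list of naturals, `ev2 z Y L` for a
  list of lists.
* `nuss P y k e a b` : `2 ^ (k + scl y)` times the product of `a` and `b` in
  `R'[Y] / (Y ^ (2 ^ k) - z ^ e)`, where `R' = (Z / 2^P)[z] / (z ^ (2 ^ (y + 2)) + 1)`.
* `conv a b` : the exact acyclic convolution of two lists of naturals (the specification).
-/

set_option autoImplicit false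

namespace Crest.Agent.X326.Mul

/-! ### Horner evaluation -/

section hor

variable {α β : Type} {A B : Type} [CommSemiring A] [CommSemiring B]

/-- Horner evaluation: `φ a₀ + z * φ a₁ + z ^ 2 * φ a₂ + ...` -/
def hor (z : A) (φ : α → A) : List α → A
  | [] => 0
  | a :: l => φ a + z * hor z φ l

@[simp] theorem hor_nil (z : A) (φ : α → A) : hor z φ [] = 0 := rfl

@[simp] theorem hor_cons (z : A) (φ : α → A) (a : α) (l : List α) :
    hor z φ (a :: l) = φ a + z * hor z φ l := rfl

theorem hor_append (z : A) (φ : α → A) (l l' : List α) :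
    hor z φ (l ++ l') = hor z φ l + z ^ l.length * hor z φ l' := by
  induction l with
  | nil => simp
  | cons a l ih => simp only [List.cons_append, hor_cons, ih, List.length_cons]; ring

theorem hor_take_drop (z : A) (φ : α → A) (l : List α) {c : ℕ} (hc : c ≤ l.length) :
    hor z φ l = hor z φ (l.take c) + z ^ c * hor z φ (l.drop c) := by
  conv_lhs => rw [← List.take_append_drop c l]
  rw [hor_append, List.length_take, min_eq_left hc]

theorem hor_congr (z : A) {φ ψ : α → A} {l : List α} (h : ∀ a ∈ l, φ a = ψ a) :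
    hor z φ l = hor z ψ l := by
  induction l with
  | nil => rfl
  | cons a l ih =>
    rw [hor_cons, hor_cons, h a (by simp), ih (fun b hb => h b (by simp [hb]))]

theorem hor_map (z : A) (φ : β → A) (g : α → β) (l : List α) :
    hor z φ (l.map g) = hor z (fun a => φ (g a)) l := by
  induction l with
  | nil => rfl
  | cons a l ih => simp [ih]

theorem hor_mul (z c : A) (φ : α → A) (l : List α) :
    hor z (fun a => c * φ a) l = c * hor z φ l := by
  induction l with
  | nil => simp
  | cons a l ih => simp only [hor_cons, ih]; ring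

theorem hor_add (z : A) (φ ψ : α → A) (l : List α) :
    hor z (fun a => φ a + ψ a) l = hor z φ l + hor z ψ l := by
  induction l with
  | nil => simp
  | cons a l ih => simp only [hor_cons, ih]; ring

theorem hor_map_mul (z c : A) {φ : α → A} {ψ : β → A} {g : α → β} {l : List α}
    (h : ∀ a ∈ l, ψ (g a) = c * φ a) : hor z ψ (l.map g) = c * hor z φ l := by
  rw [hor_map, hor_congr z h, hor_mul]

theorem hor_zipWith (z c d : A) {φ : α → A} {f : α → α → α} :
    ∀ {u v : List α}, u.length = v.length →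
      (∀ a ∈ u, ∀ b ∈ v, φ (f a b) = c * φ a + d * φ b) →
      hor z φ (List.zipWith f u v) = c * hor z φ u + d * hor z φ v
  | [], [], _, _ => by simp
  | [], _ :: _, h, _ => by simp at h
  | _ :: _, [], h, _ => by simp at h
  | a :: u, b :: v, h, hf => by
    have ih := hor_zipWith z c d (φ := φ) (f := f) (u := u) (v := v) (by simpa using h)
      (fun a' ha b' hb => hf a' (by simp [ha]) b' (by simp [hb]))
    simp only [List.zipWith_cons_cons, hor_cons, ih, hf a (by simp) b (by simp)]
    ring

theorem hor_eq_zero (z : A) {φ : α → A} {l : List α} (h : ∀ a ∈ l, φ a = 0) : hor z φ l = 0 := by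
  induction l with
  | nil => rfl
  | cons a l ih => rw [hor_cons, h a (by simp), ih (fun b hb => h b (by simp [hb]))]; simp

theorem map_hor (f : A →+* B) (z : A) (φ : α → A) (l : List α) :
    f (hor z φ l) = hor (f z) (fun a => f (φ a)) l := by
  induction l with
  | nil => simp
  | cons a l ih => simp [ih]

theorem hor_flatten (z : A) (φ : α → A) {n : ℕ} {L : List (List α)}
    (h : ∀ u ∈ L, u.length = n) : hor z φ L.flatten = hor (z ^ n) (hor z φ) L := by
  induction L with
  | nil => rfl
  | cons u L ih =>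
    rw [List.flatten_cons, hor_append, hor_cons, h u (by simp),
      ih (fun v hv => h v (by simp [hv]))]

/-- value of a list of naturals as a polynomial in `z` -/
def ev (z : A) (u : List ℕ) : A := hor z (fun c : ℕ => (c : A)) u

/-- value of a list of lists of naturals as a polynomial in `z` and `Y` -/
def ev2 (z Y : A) (L : List (List ℕ)) : A := hor Y (ev z) L

@[simp] theorem ev_nil (z : A) : ev z [] = 0 := rfl

@[simp] theorem ev_cons (z : A) (c : ℕ) (u : List ℕ) : ev z (c :: u) = c + z * ev z u := rfl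

theorem ev_append (z : A) (u v : List ℕ) : ev z (u ++ v) = ev z u + z ^ u.length * ev z v :=
  hor_append _ _ _ _

@[simp] theorem ev_replicate_zero (z : A) (n : ℕ) : ev z (List.replicate n 0) = 0 :=
  hor_eq_zero z (fun a ha => by simp [List.eq_of_mem_replicate ha])

theorem map_ev (f : A →+* B) (z : A) (u : List ℕ) : f (ev z u) = ev (f z) u := by
  simp only [ev, map_hor, map_natCast]

theorem map_ev2 (f : A →+* B) (z Y : A) (L : List (List ℕ)) :
    f (ev2 z Y L) = ev2 (f z) (f Y) L := by
  simp only [ev2, map_hor, map_ev]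

@[simp] theorem ev2_singleton (z Y : A) (u : List ℕ) : ev2 z Y [u] = ev z u := by
  simp [ev2]

theorem ev_eq_ofDigits (b : ℕ) (u : List ℕ) : ev b u = Nat.ofDigits b u := by
  induction u with
  | nil => rfl
  | cons c u ih => simp [ih, Nat.ofDigits_cons]

end hor

/-! ### arithmetic modulo `2 ^ P` on lists -/

/-- addition modulo `2 ^ P` -/
def addM (P a b : ℕ) : ℕ := (a + b) % 2 ^ P

/-- negation modulo `2 ^ P` -/
def negM (P a : ℕ) : ℕ := (2 ^ P - a % 2 ^ P) % 2 ^ P

/-- subtraction modulo `2 ^ P` -/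
def subM (P a b : ℕ) : ℕ := addM P a (negM P b)

/-- multiplication modulo `2 ^ P` -/
def mulM (P a b : ℕ) : ℕ := (a * b) % 2 ^ P

/-- sum of two coefficient lists -/
def vadd (P : ℕ) (u v : List ℕ) : List ℕ := List.zipWith (addM P) u v

/-- difference of two coefficient lists -/
def vsub (P : ℕ) (u v : List ℕ) : List ℕ := List.zipWith (subM P) u v

/-- negacyclic rotation: multiplication by `z ^ (n - c)` modulo `z ^ n + 1`, `n = u.length` -/
def rotc (P c : ℕ) (u : List ℕ) : List ℕ := (u.drop c).map (negM P) ++ u.take c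

/-- `lo + z ^ (n - c) * hi` for the two halves of `a` -/
def fwdP (P t c : ℕ) (a : List (List ℕ)) : List (List ℕ) :=
  List.zipWith (vadd P) (a.take t) ((a.drop t).map (rotc P c))

/-- `lo - z ^ (n - c) * hi` for the two halves of `a` -/
def fwdM (P t c : ℕ) (a : List (List ℕ)) : List (List ℕ) :=
  List.zipWith (vsub P) (a.take t) ((a.drop t).map (rotc P c))

/-- the inverse butterfly (times two) -/
def join (P f : ℕ) (u v : List (List ℕ)) : List (List ℕ) :=
  List.zipWith (vadd P) u v ++ (List.zipWith (vsub P) v u).map (rotc P f)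

/-- `t` consecutive blocks of length `B` -/
def cut {α : Type} (B : ℕ) : ℕ → List α → List (List α)
  | 0, _ => []
  | t + 1, l => l.take B :: cut B t (l.drop B)

/-- cut in blocks of length `B` and pad each block with `B` zeros -/
def emb (B t : ℕ) (u : List ℕ) : List (List ℕ) :=
  (cut B t u).map (fun c => c ++ List.replicate B 0)

/-- overlap-add of blocks of length `2 B`, negacyclically -/
def unemb (P B c : ℕ) (L : List (List ℕ)) : List ℕ :=
  vadd P (L.map (List.take B)).flatten (rotc P c (L.map (List.drop B)).flatten)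

/-- one Horner step of the schoolbook product modulo `z ^ 4 + 1` -/
def schoolStep (P : ℕ) (v : List ℕ) (c : ℕ) (acc : List ℕ) : List ℕ :=
  vadd P (v.map (mulM P c)) (rotc P 3 acc)

/-- schoolbook product modulo `z ^ 4 + 1` -/
def school (P : ℕ) (u v : List ℕ) : List ℕ :=
  schoolStep P v (u.getD 0 0) (schoolStep P v (u.getD 1 0) (schoolStep P v (u.getD 2 0)
    (v.map (mulM P (u.getD 3 0)))))

/-- The recursive product. -/
def nuss (P : ℕ) : ℕ → ℕ → ℕ → List (List ℕ) → List (List ℕ) → List (List ℕ)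
  | y, k + 1, e, a, b =>
      join P (e / 2)
        (nuss P y k (e / 2) (fwdP P (2 ^ k) (2 ^ (y + 2) - e / 2) a)
          (fwdP P (2 ^ k) (2 ^ (y + 2) - e / 2) b))
        (nuss P y k (e / 2 + 2 ^ (y + 2)) (fwdM P (2 ^ k) (2 ^ (y + 2) - e / 2) a)
          (fwdM P (2 ^ k) (2 ^ (y + 2) - e / 2) b))
  | 0, 0, _, a, b => [school P a.flatten b.flatten]
  | y + 1, 0, _, a, b =>
      [unemb P (2 ^ ((y + 1) / 2 + 1)) (2 ^ (y + 1 + 2) - 2 ^ ((y + 1) / 2 + 1))
        (nuss P ((y + 1) / 2) ((y + 1 + 1) / 2 + 1) (2 ^ ((y + 1) / 2 + 2))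
          (emb (2 ^ ((y + 1) / 2 + 1)) (2 ^ ((y + 1 + 1) / 2 + 1)) a.flatten)
          (emb (2 ^ ((y + 1) / 2 + 1)) (2 ^ ((y + 1 + 1) / 2 + 1)) b.flatten))]
termination_by y k => (y, k)
decreasing_by
  · exact Prod.Lex.right _ (Nat.lt_succ_self _)
  · exact Prod.Lex.right _ (Nat.lt_succ_self _)
  · exact Prod.Lex.left _ _ (by omega)

/-- the power of two produced by the recursion -/
def scl (y : ℕ) : ℕ := y + y.size

/-- `t` blocks of length `n` -/
def Shape (t n : ℕ) (L : List (List ℕ)) : Prop := L.length = t ∧ ∀ u ∈ L, u.length = n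

/-- all entries are below `2 ^ P` -/
def Bd (P : ℕ) (u : List ℕ) : Prop := ∀ c ∈ u, c < 2 ^ P

/-- all entries are below `2 ^ P` -/
def Bd2 (P : ℕ) (L : List (List ℕ)) : Prop := ∀ u ∈ L, Bd P u

/-- exact acyclic convolution, padded to length `a.length + b.length` -/
def conv (a b : List ℕ) : List ℕ :=
  (List.range (a.length + b.length)).map
    (fun k => ∑ i ∈ Finset.range (k + 1), a.getD i 0 * b.getD (k - i) 0)

theorem nuss_succ (P y k e : ℕ) (a b : List (List ℕ)) :
    nuss P y (k + 1) e a b = join P (e / 2)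
        (nuss P y k (e / 2) (fwdP P (2 ^ k) (2 ^ (y + 2) - e / 2) a)
          (fwdP P (2 ^ k) (2 ^ (y + 2) - e / 2) b))
        (nuss P y k (e / 2 + 2 ^ (y + 2)) (fwdM P (2 ^ k) (2 ^ (y + 2) - e / 2) a)
          (fwdM P (2 ^ k) (2 ^ (y + 2) - e / 2) b)) := by
  rw [nuss]

theorem nuss_zero_zero (P e : ℕ) (a b : List (List ℕ)) :
    nuss P 0 0 e a b = [school P a.flatten b.flatten] := by
  rw [nuss]

theorem nuss_pos_zero (P : ℕ) {y : ℕ} (hy : y ≠ 0) (e : ℕ) (a b : List (List ℕ)) :
    nuss P y 0 e a b = [unemb P (2 ^ (y / 2 + 1)) (2 ^ (y + 2) - 2 ^ (y / 2 + 1))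
        (nuss P (y / 2) ((y + 1) / 2 + 1) (2 ^ (y / 2 + 2))
          (emb (2 ^ (y / 2 + 1)) (2 ^ ((y + 1) / 2 + 1)) a.flatten)
          (emb (2 ^ (y / 2 + 1)) (2 ^ ((y + 1) / 2 + 1)) b.flatten))] := by
  obtain ⟨y, rfl⟩ := Nat.exists_eq_add_one_of_ne_zero hy
  conv_lhs => rw [nuss]

end Crest.Agent.X326.Mul
private theorem rz_48a1c8e2a4 : type_of% @_root_.Crest.Agent.X326.Mul.cut.eq_def := @_root_.Crest.Agent.X326.Mul.cut.eq_def -- L174
private theorem rz_7fdc754e1c : type_of% @_root_.Crest.Agent.X326.Mul.cut.eq_1 := @_root_.Crest.Agent.X326.Mul.cut.eq_1 -- L174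
private theorem rz_6f0988b5e2 : type_of% @_root_.Crest.Agent.X326.Mul.nuss.eq_1 := @_root_.Crest.Agent.X326.Mul.nuss.eq_1 -- L196
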