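import Crest.Agent.X326.Mul.Defs
import Crest.Agent.Lib.PT.Iter
import Crest.Agent.X326.TC.ListLin
import Crest.Agent.X326.TC.Map
import Crest.Agent.X326.TC.Deal
import Crest.Agent.X326.TC.Un
import Crest.Agent.X326.TC.NatLin
import Crest.Agent.X326.TC.Rec
import Crest.Agent.X326.TC.MergeSpec
import Crest.Agent.X326.TC.NatMul

-- ▼ part X326/Mul/Correct
section

/-!
# Correctness of the Schoenhage-Nussbaumer recursion
-/

set_option autoImplicit false

namespace Crest.Agent.X326.Mul

open Polynomial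

/-! ### coefficient arithmetic -/

section coeff

variable {A : Type} [CommRing A] {P : ℕ}

theorem cast_mod (h2 : (2 : A) ^ P = 0) (a : ℕ) : ((a % 2 ^ P : ℕ) : A) = a := by
  conv_rhs => rw [← Nat.mod_add_div a (2 ^ P)]
  push_cast
  rw [h2]
  simp

theorem cast_addM (h2 : (2 : A) ^ P = 0) (a b : ℕ) : ((addM P a b : ℕ) : A) = a + b := by
  rw [addM, cast_mod h2, Nat.cast_add]

theorem cast_negM (h2 : (2 : A) ^ P = 0) (a : ℕ) : ((negM P a : ℕ) : A) = -a := by
  have h : a % 2 ^ P ≤ 2 ^ P := (Nat.mod_lt _ (by positivity)).le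
  rw [negM, cast_mod h2, Nat.cast_sub h, cast_mod h2]
  push_cast
  rw [h2, zero_sub]

theorem cast_subM (h2 : (2 : A) ^ P = 0) (a b : ℕ) : ((subM P a b : ℕ) : A) = a - b := by
  rw [subM, cast_addM h2, cast_negM h2, sub_eq_add_neg]

theorem cast_mulM (h2 : (2 : A) ^ P = 0) (a b : ℕ) : ((mulM P a b : ℕ) : A) = a * b := by
  rw [mulM, cast_mod h2, Nat.cast_mul]

theorem ev_vadd (h2 : (2 : A) ^ P = 0) (z : A) {u v : List ℕ} (h : u.length = v.length) :
    ev z (vadd P u v) = ev z u + ev z v := by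
  have := hor_zipWith z 1 1 (φ := fun c : ℕ => (c : A)) (f := addM P) h
    (fun a _ b _ => by rw [cast_addM h2]; ring)
  simpa [ev, vadd] using this

theorem ev_vsub (h2 : (2 : A) ^ P = 0) (z : A) {u v : List ℕ} (h : u.length = v.length) :
    ev z (vsub P u v) = ev z u - ev z v := by
  have := hor_zipWith z 1 (-1) (φ := fun c : ℕ => (c : A)) (f := subM P) h
    (fun a _ b _ => by rw [cast_subM h2]; ring)
  simpa [ev, vsub, sub_eq_add_neg] using this

theorem ev_map_negM (h2 : (2 : A) ^ P = 0) (z : A) (u : List ℕ) :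
    ev z (u.map (negM P)) = - ev z u := by
  have := hor_map_mul z (-1) (φ := fun c : ℕ => (c : A)) (ψ := fun c : ℕ => (c : A))
    (g := negM P) (l := u) (fun a _ => by rw [cast_negM h2]; ring)
  simpa [ev] using this

theorem ev_map_mulM (h2 : (2 : A) ^ P = 0) (z : A) (c : ℕ) (u : List ℕ) :
    ev z (u.map (mulM P c)) = c * ev z u :=
  hor_map_mul z (c : A) (φ := fun c : ℕ => (c : A)) (ψ := fun c : ℕ => (c : A))
    (g := mulM P c) (l := u) (fun a _ => by rw [cast_mulM h2])

theorem ev_rotc (h2 : (2 : A) ^ P = 0) {z : A} {n c : ℕ} (hz : z ^ n = -1) (hc : c ≤ n)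
    {u : List ℕ} (hu : u.length = n) : ev z (rotc P c u) = z ^ (n - c) * ev z u := by
  have e1 : ev z u = ev z (u.take c) + z ^ c * ev z (u.drop c) :=
    hor_take_drop z _ u (hu ▸ hc)
  have e2 : z ^ (n - c) * z ^ c = -1 := by rw [← pow_add, Nat.sub_add_cancel hc, hz]
  rw [rotc, ev_append, ev_map_negM h2, List.length_map, List.length_drop, hu, e1]
  linear_combination (-ev z (u.drop c)) * e2

end coeff

/-! ### lengths -/

@[simp] theorem length_vadd (P : ℕ) (u v : List ℕ) :
    (vadd P u v).length = min u.length v.length := by simp [vadd]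

@[simp] theorem length_vsub (P : ℕ) (u v : List ℕ) :
    (vsub P u v).length = min u.length v.length := by simp [vsub]

@[simp] theorem length_rotc (P c : ℕ) (u : List ℕ) : (rotc P c u).length = u.length := by
  simp [rotc]; omega

theorem Shape.take {t t' n : ℕ} {L : List (List ℕ)} (h : Shape (t + t') n L) :
    Shape t n (L.take t) :=
  ⟨by simp [h.1], fun u hu => h.2 u (List.mem_of_mem_take hu)⟩

theorem Shape.drop {t t' n : ℕ} {L : List (List ℕ)} (h : Shape (t + t') n L) :
    Shape t' n (L.drop t) :=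
  ⟨by simp [h.1], fun u hu => h.2 u (List.mem_of_mem_drop hu)⟩

theorem Shape.map {t n n' : ℕ} {L : List (List ℕ)} (h : Shape t n L) {g : List ℕ → List ℕ}
    (hg : ∀ u, u.length = n → (g u).length = n') : Shape t n' (L.map g) := by
  refine ⟨by simp [h.1], fun u hu => ?_⟩
  obtain ⟨v, hv, rfl⟩ := List.mem_map.1 hu
  exact hg v (h.2 v hv)

theorem mem_zipWith {α β γ : Type} {f : α → β → γ} {u : List α} {v : List β} {c : γ}
    (h : c ∈ List.zipWith f u v) : ∃ a ∈ u, ∃ b ∈ v, c = f a b := by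
  induction u generalizing v with
  | nil => simp at h
  | cons a u ih =>
    cases v with
    | nil => simp at h
    | cons b v =>
      rcases List.mem_cons.1 h with rfl | h
      · exact ⟨a, by simp, b, by simp, rfl⟩
      · obtain ⟨a', ha, b', hb, rfl⟩ := ih h
        exact ⟨a', by simp [ha], b', by simp [hb], rfl⟩

theorem Shape.zipWith {t n : ℕ} {L L' : List (List ℕ)} (h : Shape t n L) (h' : Shape t n L')
    {g : List ℕ → List ℕ → List ℕ}
    (hg : ∀ u v, u.length = n → v.length = n → (g u v).length = n) :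
    Shape t n (List.zipWith g L L') := by
  refine ⟨by simp [h.1, h'.1], fun u hu => ?_⟩
  obtain ⟨a, ha, b, hb, rfl⟩ := mem_zipWith hu
  exact hg a b (h.2 a ha) (h'.2 b hb)

theorem Shape.append {t t' n : ℕ} {L L' : List (List ℕ)} (h : Shape t n L) (h' : Shape t' n L') :
    Shape (t + t') n (L ++ L') := by
  refine ⟨by simp [h.1, h'.1], fun u hu => ?_⟩
  rcases List.mem_append.1 hu with hu | hu
  exacts [h.2 u hu, h'.2 u hu]

theorem Shape.length_flatten {t n : ℕ} {L : List (List ℕ)} (h : Shape t n L) :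
    L.flatten.length = t * n := by
  obtain ⟨rfl, h⟩ := h
  induction L with
  | nil => simp
  | cons u L ih =>
    rw [List.flatten_cons, List.length_append, h u (by simp), ih (fun v hv => h v (by simp [hv])),
      List.length_cons]
    ring

theorem Shape.singleton {n : ℕ} {u : List ℕ} (h : u.length = n) : Shape 1 n [u] :=
  ⟨rfl, fun v hv => by rw [List.mem_singleton.1 hv, h]⟩

theorem Shape.eq_singleton {n : ℕ} {L : List (List ℕ)} (h : Shape 1 n L) : L = [L.flatten] := by
  obtain ⟨u, rfl⟩ := List.length_eq_one_iff.1 h.1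
  simp

theorem Shape.fwdP {P t n c : ℕ} {a : List (List ℕ)} (h : Shape (t + t) n a) :
    Shape t n (fwdP P t c a) :=
  h.take.zipWith (h.drop.map (fun u hu => by simp [hu])) (fun u v hu hv => by simp [hu, hv])

theorem Shape.fwdM {P t n c : ℕ} {a : List (List ℕ)} (h : Shape (t + t) n a) :
    Shape t n (fwdM P t c a) :=
  h.take.zipWith (h.drop.map (fun u hu => by simp [hu])) (fun u v hu hv => by simp [hu, hv])

theorem Shape.join {P t n f : ℕ} {u v : List (List ℕ)} (hu : Shape t n u) (hv : Shape t n v) :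
    Shape (t + t) n (join P f u v) :=
  (hu.zipWith hv (fun u v hu hv => by simp [hu, hv])).append
    ((hv.zipWith hu (fun u v hu hv => by simp [hu, hv])).map (fun u hu => by simp [hu]))

theorem length_cut {α : Type} (B t : ℕ) (l : List α) : (cut B t l).length = t := by
  induction t generalizing l with
  | zero => rfl
  | succ t ih => simp [cut, ih]

theorem length_of_mem_cut {α : Type} {B t : ℕ} {l : List α} (h : l.length = t * B) :
    ∀ u ∈ cut B t l, u.length = B := by
  induction t generalizing l with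
  | zero => simp [cut]
  | succ t ih =>
    intro u hu
    have h1 : B ≤ l.length := by rw [h]; nlinarith
    rcases List.mem_cons.1 hu with rfl | hu
    · simp [h1]
    · exact ih (l := l.drop B) (by rw [List.length_drop, h]; ring_nf; omega) u hu

theorem flatten_cut {α : Type} {B t : ℕ} {l : List α} (h : l.length = t * B) :
    (cut B t l).flatten = l := by
  induction t generalizing l with
  | zero => simpa [cut] using (List.length_eq_zero_iff.1 (by simpa using h)).symm
  | succ t ih =>
    rw [cut, List.flatten_cons, ih (by rw [List.length_drop, h]; ring_nf; omega),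
      List.take_append_drop]

theorem shape_cut {B t : ℕ} {l : List ℕ} (h : l.length = t * B) : Shape t B (cut B t l) :=
  ⟨length_cut _ _ _, length_of_mem_cut h⟩

theorem shape_emb {B t : ℕ} {l : List ℕ} (h : l.length = t * B) : Shape t (B + B) (emb B t l) :=
  (shape_cut h).map (fun u hu => by simp [hu])

theorem length_unemb {P B c t : ℕ} {L : List (List ℕ)} (h : Shape t (B + B) L) :
    (unemb P B c L).length = t * B := by
  have h1 : Shape t B (L.map (List.take B)) := h.map (fun u hu => by simp [hu])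
  have h2 : Shape t B (L.map (List.drop B)) := h.map (fun u hu => by simp [hu])
  rw [unemb, length_vadd, length_rotc, h1.length_flatten, h2.length_flatten, min_self]

theorem length_school (P : ℕ) (u v : List ℕ) : (school P u v).length = v.length := by
  simp [school, schoolStep]

/-! ### values of the steps -/

section steps

variable {A : Type} [CommRing A] {P : ℕ}

theorem ev2_zip_vadd (h2 : (2 : A) ^ P = 0) (z Y : A) {t n : ℕ} {u v : List (List ℕ)}
    (hu : Shape t n u) (hv : Shape t n v) :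
    ev2 z Y (List.zipWith (vadd P) u v) = ev2 z Y u + ev2 z Y v := by
  have := hor_zipWith Y 1 1 (φ := ev z) (f := vadd P) (hu.1.trans hv.1.symm)
    (fun a ha b hb => by rw [ev_vadd h2 z ((hu.2 a ha).trans (hv.2 b hb).symm)]; ring)
  simpa [ev2] using this

theorem ev2_zip_vsub (h2 : (2 : A) ^ P = 0) (z Y : A) {t n : ℕ} {u v : List (List ℕ)}
    (hu : Shape t n u) (hv : Shape t n v) :
    ev2 z Y (List.zipWith (vsub P) u v) = ev2 z Y u - ev2 z Y v := by
  have := hor_zipWith Y 1 (-1) (φ := ev z) (f := vsub P) (hu.1.trans hv.1.symm)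
    (fun a ha b hb => by rw [ev_vsub h2 z ((hu.2 a ha).trans (hv.2 b hb).symm)]; ring)
  simpa [ev2, sub_eq_add_neg] using this

theorem ev2_map_rotc (h2 : (2 : A) ^ P = 0) {z : A} (Y : A) {t n c : ℕ} (hz : z ^ n = -1)
    (hc : c ≤ n) {u : List (List ℕ)} (hu : Shape t n u) :
    ev2 z Y (u.map (rotc P c)) = z ^ (n - c) * ev2 z Y u :=
  hor_map_mul Y _ (fun a ha => ev_rotc h2 hz hc (hu.2 a ha))

theorem ev2_halves (z Y : A) {t n : ℕ} {a : List (List ℕ)} (h : Shape (t + t) n a) :
    ev2 z Y a = ev2 z Y (a.take t) + Y ^ t * ev2 z Y (a.drop t) :=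
  hor_take_drop Y _ a (by rw [h.1]; omega)

theorem ev2_fwdP (h2 : (2 : A) ^ P = 0) {z : A} (Y : A) {t n f : ℕ} (hz : z ^ n = -1)
    (hf : f ≤ n) {a : List (List ℕ)} (h : Shape (t + t) n a) :
    ev2 z Y (fwdP P t (n - f) a) = ev2 z Y a - (Y ^ t - z ^ f) * ev2 z Y (a.drop t) := by
  rw [fwdP, ev2_zip_vadd h2 z Y h.take (h.drop.map (fun u hu => by simp [hu])),
    ev2_map_rotc h2 Y hz (Nat.sub_le _ _) h.drop, Nat.sub_sub_self hf, ev2_halves z Y h]
  ring

theorem ev2_fwdM (h2 : (2 : A) ^ P = 0) {z : A} (Y : A) {t n f : ℕ} (hz : z ^ n = -1)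
    (hf : f ≤ n) {a : List (List ℕ)} (h : Shape (t + t) n a) :
    ev2 z Y (fwdM P t (n - f) a) = ev2 z Y a - (Y ^ t + z ^ f) * ev2 z Y (a.drop t) := by
  rw [fwdM, ev2_zip_vsub h2 z Y h.take (h.drop.map (fun u hu => by simp [hu])),
    ev2_map_rotc h2 Y hz (Nat.sub_le _ _) h.drop, Nat.sub_sub_self hf, ev2_halves z Y h]
  ring

theorem ev2_join (h2 : (2 : A) ^ P = 0) {z : A} (Y : A) {t n f : ℕ} (hz : z ^ n = -1)
    (hf : f ≤ n) {u v : List (List ℕ)} (hu : Shape t n u) (hv : Shape t n v) :
    ev2 z Y (join P f u v) = ev2 z Y u + ev2 z Y v +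
      Y ^ t * (z ^ (n - f) * (ev2 z Y v - ev2 z Y u)) := by
  have h1 : Shape t n (List.zipWith (vadd P) u v) :=
    hu.zipWith hv (fun u v hu hv => by simp [hu, hv])
  have h3 : Shape t n (List.zipWith (vsub P) v u) :=
    hv.zipWith hu (fun u v hu hv => by simp [hu, hv])
  have e := hor_append Y (ev z) (List.zipWith (vadd P) u v)
    ((List.zipWith (vsub P) v u).map (rotc P f))
  rw [h1.1] at e
  rw [join, ev2, e]
  change ev2 z Y _ + Y ^ t * ev2 z Y _ = _
  rw [ev2_zip_vadd h2 z Y hu hv, ev2_map_rotc h2 Y hz hf h3, ev2_zip_vsub h2 z Y hv hu]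

theorem ev2_emb (z Y : A) (B t : ℕ) (u : List ℕ) :
    ev2 z Y (emb B t u) = ev2 z Y (cut B t u) := by
  rw [emb, ev2, hor_map]
  exact hor_congr Y (fun c _ => by simp [ev_append])

theorem ev2_cut (z : A) {B t : ℕ} {u : List ℕ} (h : u.length = t * B) :
    ev2 z (z ^ B) (cut B t u) = ev z u := by
  conv_rhs => rw [← flatten_cut h]
  exact (hor_flatten z _ (length_of_mem_cut h)).symm

theorem ev_unemb (h2 : (2 : A) ^ P = 0) {z : A} {B t : ℕ} (ht : 0 < t) (hz : z ^ (t * B) = -1)
    {L : List (List ℕ)} (h : Shape t (B + B) L) :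
    ev z (unemb P B (t * B - B) L) = ev2 z (z ^ B) L := by
  have h1 : Shape t B (L.map (List.take B)) := h.map (fun u hu => by simp [hu])
  have h3 : Shape t B (L.map (List.drop B)) := h.map (fun u hu => by simp [hu])
  have hB : B ≤ t * B := Nat.le_mul_of_pos_left B ht
  rw [unemb, ev_vadd h2 z (by rw [length_rotc, h1.length_flatten, h3.length_flatten]),
    ev_rotc h2 hz (Nat.sub_le _ _) h3.length_flatten, Nat.sub_sub_self hB]
  have e1 : ev z (L.map (List.take B)).flatten = hor (z ^ B) (fun u => ev z (u.take B)) L := by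
    rw [← hor_map (z ^ B) (ev z) (List.take B) L]
    exact hor_flatten z _ h1.2
  have e2 : ev z (L.map (List.drop B)).flatten = hor (z ^ B) (fun u => ev z (u.drop B)) L := by
    rw [← hor_map (z ^ B) (ev z) (List.drop B) L]
    exact hor_flatten z _ h3.2
  rw [e1, e2, ← hor_mul, ← hor_add]
  refine hor_congr _ (fun u hu => ?_)
  exact (hor_take_drop z _ u (by rw [h.2 u hu]; omega)).symm

theorem ev_school (h2 : (2 : A) ^ P = 0) {z : A} (hz : z ^ 4 = -1) {u v : List ℕ}
    (hu : u.length = 4) (hv : v.length = 4) : ev z (school P u v) = ev z u * ev z v := by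
  have step : ∀ (c : ℕ) (acc : List ℕ), acc.length = 4 →
      ev z (schoolStep P v c acc) = c * ev z v + z * ev z acc := by
    intro c acc hacc
    rw [schoolStep, ev_vadd h2 z (by simp [hv, hacc]), ev_map_mulM h2,
      ev_rotc h2 hz (by norm_num) hacc]
    simp
  match u, hu with
  | [u0, u1, u2, u3], _ =>
    rw [school, step _ _ (by simp [schoolStep, hv]), step _ _ (by simp [schoolStep, hv]),
      step _ _ (by simp [hv]), ev_map_mulM h2]
    simp
    ring

end steps

/-! ### polynomials of small degree -/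

section degree

variable {A : Type} [CommRing A]

theorem degree_ev_lt (u : List ℕ) : (ev (X : A[X]) u).degree < u.length := by
  rw [degree_lt_iff_coeff_zero]
  induction u with
  | nil => simp
  | cons c u ih =>
    intro m hm
    obtain ⟨m, rfl⟩ : ∃ j, m = j + 1 := ⟨m - 1, by simp at hm; omega⟩
    rw [ev_cons, coeff_add, coeff_X_mul, ih m (by simpa using hm), ← C_eq_natCast, coeff_C_succ,
      add_zero]

theorem degree_ev2_lt (c : A) {n : ℕ} {L : List (List ℕ)} (h : ∀ u ∈ L, u.length ≤ n) :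
    (ev2 (X : A[X]) (C c) L).degree < n := by
  rw [degree_lt_iff_coeff_zero]
  induction L with
  | nil => simp [ev2]
  | cons u L ih =>
    intro m hm
    have h1 := (degree_lt_iff_coeff_zero _ _).1 (degree_ev_lt (A := A) u) m
      ((h u (by simp)).trans hm)
    have h3 := ih (fun v hv => h v (by simp [hv])) m hm
    rw [ev2] at h3 ⊢
    rw [hor_cons, coeff_add, coeff_C_mul, h1, h3]
    simp

theorem degree_mul_lt {p q : A[X]} {m n : ℕ} (hp : p.degree < m) (hq : q.degree < n) :
    (p * q).degree < (m + n : ℕ) := by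
  refine (degree_mul_le p q).trans_lt ?_
  rw [Nat.cast_add]
  exact (add_le_add_left hp.le _).trans_lt (WithBot.add_lt_add_left (by simp) hq)

theorem degree_C_mul_lt {p : A[X]} (c : A) {n : ℕ} (hp : p.degree < n) :
    (C c * p).degree < n := by
  rw [degree_lt_iff_coeff_zero] at hp ⊢
  intro m hm
  rw [coeff_C_mul, hp m hm, mul_zero]

/-- polynomials of degree `< n` are determined by their class modulo `X ^ n + 1` -/
theorem eq_of_mk_eq {n : ℕ} (hn : n ≠ 0) {p q : A[X]} (hp : p.degree < n) (hq : q.degree < n)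
    (h : AdjoinRoot.mk (X ^ n + 1 : A[X]) p = AdjoinRoot.mk (X ^ n + 1 : A[X]) q) :
    p = q := by
  rcases subsingleton_or_nontrivial A with hA | hA
  · exact Subsingleton.elim _ _
  by_contra hne
  have hm : (X ^ n + C 1 : A[X]).Monic := monic_X_pow_add_C 1 hn
  refine hm.not_dvd_of_degree_lt (sub_ne_zero.2 hne) ?_ (AdjoinRoot.mk_eq_mk.1 h)
  rw [degree_X_pow_add_C (Nat.pos_of_ne_zero hn)]
  exact (degree_sub_le p q).trans_lt (max_lt hp hq)

theorem root_pow (n : ℕ) : (AdjoinRoot.root (X ^ n + 1 : A[X])) ^ n = -1 := by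
  have h := AdjoinRoot.mk_self (f := (X ^ n + 1 : A[X]))
  rw [map_add, map_pow, AdjoinRoot.mk_X, map_one] at h
  exact eq_neg_of_add_eq_zero_left h

end degree

/-! ### the main theorem -/

theorem scl_pos {y : ℕ} (hy : y ≠ 0) : scl y = (y + 1) / 2 + 1 + scl (y / 2) := by
  have h : y.size = (y / 2).size + 1 := by
    conv_lhs => rw [← Nat.bit_bodd_div2 y]
    rw [Nat.size_bit (by rwa [Nat.bit_bodd_div2]), Nat.div2_val]
  unfold scl
  omega

theorem nuss_spec (P : ℕ) (y : ℕ) : ∀ (k e : ℕ) (a b : List (List ℕ)),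
    Shape (2 ^ k) (2 ^ (y + 2)) a → Shape (2 ^ k) (2 ^ (y + 2)) b → 2 ^ k ∣ e → k ≤ y + 3 →
    e ≤ 2 * 2 ^ (y + 2) →
    Shape (2 ^ k) (2 ^ (y + 2)) (nuss P y k e a b) ∧
      ∀ (A : Type) [CommRing A] (z Y : A), (2 : A) ^ P = 0 → z ^ 2 ^ (y + 2) = -1 →
        Y ^ 2 ^ k - z ^ e ∣
          ev2 z Y (nuss P y k e a b) - 2 ^ (k + scl y) * (ev2 z Y a * ev2 z Y b) := by
  induction y using Nat.strong_induction_on with
  | _ y ihy =>
  intro k
  induction k with
  | zero =>
    intro e a b ha hb _ _ _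
    rw [pow_zero] at ha hb ⊢
    have hla : a.flatten.length = 2 ^ (y + 2) := by rw [ha.length_flatten, one_mul]
    have hlb : b.flatten.length = 2 ^ (y + 2) := by rw [hb.length_flatten, one_mul]
    by_cases hy : y = 0
    · subst hy
      rw [nuss_zero_zero]
      refine ⟨Shape.singleton (by rw [length_school, hlb]), fun A _ z Y h2 hz => ?_⟩
      rw [ha.eq_singleton, hb.eq_singleton]
      simp only [ev2_singleton, List.flatten_cons, List.flatten_nil, List.append_nil]
      rw [ev_school h2 hz hla hlb]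
      simp [scl]
    · rw [nuss_pos_zero P hy]
      set B := 2 ^ (y / 2 + 1) with hB
      set t := 2 ^ ((y + 1) / 2 + 1) with ht
      have hn : 2 ^ (y + 2) = t * B := by
        rw [hB, ht, ← pow_add]; congr 1; omega
      have hBB : 2 ^ (y / 2 + 2) = B + B := by rw [hB]; ring
      have hB0 : B + B ≠ 0 := by positivity
      have ht0 : 0 < t := by positivity
      obtain ⟨hs, hv⟩ := ihy (y / 2) (by omega) ((y + 1) / 2 + 1) (2 ^ (y / 2 + 2))
        (emb B t a.flatten) (emb B t b.flatten) (hBB ▸ shape_emb (hla.trans hn))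
        (hBB ▸ shape_emb (hlb.trans hn)) (pow_dvd_pow 2 (by omega)) (by omega) (by omega)
      rw [hBB] at hs hv ⊢
      set c := nuss P (y / 2) ((y + 1) / 2 + 1) (B + B) (emb B t a.flatten) (emb B t b.flatten)
      refine ⟨Shape.singleton (by rw [length_unemb hs, hn]), fun A _ z Y h2 hz => ?_⟩
      rw [hn] at hz
      rw [ha.eq_singleton, hb.eq_singleton]
      simp only [ev2_singleton]
      rw [hn, ev_unemb h2 ht0 hz hs, zero_add, scl_pos hy]
      -- the identity in the ring with a root of `X ^ (2 B) + 1`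
      have key : ev2 (X : A[X]) (C (z ^ B)) c =
          C (2 ^ ((y + 1) / 2 + 1 + scl (y / 2))) * (ev2 X (C (z ^ B)) (cut B t a.flatten) *
            ev2 X (C (z ^ B)) (cut B t b.flatten)) := by
        refine eq_of_mk_eq hB0 (degree_ev2_lt _ (fun u hu => (hs.2 u hu).le))
          (degree_C_mul_lt _ (degree_mul_lt
            (degree_ev2_lt _ (fun u hu => (length_of_mem_cut (hla.trans hn) u hu).le))
            (degree_ev2_lt _ (fun u hu => (length_of_mem_cut (hlb.trans hn) u hu).le)))) ?_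
        have h3 := hv (AdjoinRoot (X ^ (B + B) + 1 : A[X])) (AdjoinRoot.root _)
          (AdjoinRoot.of _ (z ^ B)) (by rw [← map_ofNat (AdjoinRoot.of _) 2, ← map_pow, h2, map_zero])
          (root_pow _)
        rw [root_pow, ← map_pow, ← pow_mul, mul_comm B, hz, map_neg, map_one, sub_self,
          zero_dvd_iff, sub_eq_zero, ev2_emb, ev2_emb] at h3
        simp only [map_mul, map_ev2, AdjoinRoot.mk_X, AdjoinRoot.mk_C, map_pow, map_ofNat] at h3 ⊢
        exact h3
      have h4 := congrArg (evalRingHom z) key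
      simp only [map_mul, map_ev2, coe_evalRingHom, eval_X, eval_C] at h4
      rw [h4, ev2_cut z (hla.trans hn), ev2_cut z (hlb.trans hn), sub_self]
      exact dvd_zero _
  | succ k ihk =>
    intro e a b ha hb he hk hle
    obtain ⟨f, rfl⟩ : ∃ f, e = 2 * f := (dvd_pow_self 2 (Nat.succ_ne_zero k)).trans he
    have hf : 2 * f / 2 = f := by omega
    have hfd : 2 ^ k ∣ f := by
      rw [pow_succ'] at he
      exact Nat.dvd_of_mul_dvd_mul_left (by norm_num) he
    have htt : 2 ^ (k + 1) = 2 ^ k + 2 ^ k := by ring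
    have hfn : f ≤ 2 ^ (y + 2) := by omega
    rw [nuss_succ, hf]
    rw [htt] at ha hb ⊢
    obtain ⟨hsu, hu⟩ := ihk f _ _ (ha.fwdP (P := P) (c := 2 ^ (y + 2) - f))
      (hb.fwdP (P := P) (c := 2 ^ (y + 2) - f)) hfd (by omega) (by omega)
    obtain ⟨hsv, hv⟩ := ihk (f + 2 ^ (y + 2)) _ _ (ha.fwdM (P := P) (c := 2 ^ (y + 2) - f))
      (hb.fwdM (P := P) (c := 2 ^ (y + 2) - f))
      (dvd_add hfd (pow_dvd_pow 2 (by omega))) (by omega) (by omega)
    refine ⟨hsu.join hsv, fun A _ z Y h2 hz => ?_⟩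
    obtain ⟨α, hα⟩ := hu A z Y h2 hz
    obtain ⟨β, hβ⟩ := hv A z Y h2 hz
    rw [ev2_fwdP h2 Y hz hfn ha, ev2_fwdP h2 Y hz hfn hb] at hα
    rw [ev2_fwdM h2 Y hz hfn ha, ev2_fwdM h2 Y hz hfn hb, pow_add z, hz] at hβ
    rw [ev2_join h2 Y hz hfn hsu hsv]
    have hq : z ^ f * z ^ (2 ^ (y + 2) - f) = -1 := by
      rw [← pow_add, Nat.add_sub_cancel' hfn, hz]
    rw [pow_add Y, two_mul f, pow_add z f f, show k + 1 + scl y = k + scl y + 1 by ring,
      pow_succ (2 : A)]
    generalize ev2 z Y (nuss P y k f _ _) = U at hα ⊢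
    generalize ev2 z Y (nuss P y k (f + 2 ^ (y + 2)) _ _) = V at hβ ⊢
    generalize ev2 z Y a = x at hα hβ ⊢
    generalize ev2 z Y b = x' at hα hβ ⊢
    generalize ev2 z Y (a.drop _) = d at hα hβ
    generalize ev2 z Y (b.drop _) = d' at hα hβ
    generalize z ^ (2 ^ (y + 2) - f) = q at hq ⊢
    generalize z ^ f = w at hα hβ hq ⊢
    generalize Y ^ 2 ^ k = T at hα hβ ⊢
    generalize (2 : A) ^ (k + scl y) = s at hα hβ ⊢
    have hα' : U - s * (x * x') = (T - w) * (α - s * (x * d' + d * x' - (T - w) * d * d')) := by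
      linear_combination hα
    have hβ' : V - s * (x * x') = (T + w) * (β - s * (x * d' + d * x' - (T + w) * d * d')) := by
      linear_combination hβ
    generalize α - s * (x * d' + d * x' - (T - w) * d * d') = α' at hα'
    generalize β - s * (x * d' + d * x' - (T + w) * d * d') = β' at hβ'
    refine ⟨q * (β' - α'), ?_⟩
    linear_combination (1 - T * q) * hα' + (1 + T * q) * hβ' + (α' * (T - w) + β' * (T + w)) * hq

end Crest.Agent.X326.Mul
end

-- ▼ part X326/Mul/NMul
section

/-!
# Negacyclic products modulo `2 ^ P` and exact convolution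
-/

set_option autoImplicit false

namespace Crest.Agent.X326.Mul

open Polynomial

/-! ### entries stay below `2 ^ P` -/

theorem Bd.nil (P : ℕ) : Bd P [] := fun _ h => by simp at h

theorem Bd.mono {P P' : ℕ} {u : List ℕ} (h : Bd P u) (hP : P ≤ P') : Bd P' u :=
  fun c hc => (h c hc).trans_le (Nat.pow_le_pow_right (by norm_num) hP)

theorem Bd.take {P : ℕ} {u : List ℕ} (h : Bd P u) (n : ℕ) : Bd P (u.take n) :=
  fun c hc => h c (List.mem_of_mem_take hc)

theorem Bd.drop {P : ℕ} {u : List ℕ} (h : Bd P u) (n : ℕ) : Bd P (u.drop n) :=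
  fun c hc => h c (List.mem_of_mem_drop hc)

theorem Bd.append {P : ℕ} {u v : List ℕ} (h : Bd P u) (h' : Bd P v) : Bd P (u ++ v) :=
  fun c hc => (List.mem_append.1 hc).elim (h c) (h' c)

theorem Bd.replicate_zero (P n : ℕ) : Bd P (List.replicate n 0) :=
  fun c hc => by rw [List.eq_of_mem_replicate hc]; positivity

theorem Bd.getD {P : ℕ} {u : List ℕ} (h : Bd P u) (i : ℕ) : u.getD i 0 < 2 ^ P := by
  rw [List.getD_eq_getElem?_getD]
  cases hi : u[i]? with
  | none => simp
  | some c => exact h c (List.mem_of_getElem? hi)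

theorem Bd2.flatten {P : ℕ} {L : List (List ℕ)} (h : Bd2 P L) : Bd P L.flatten := fun c hc => by
  obtain ⟨u, hu, hc⟩ := List.mem_flatten.1 hc
  exact h u hu c hc

theorem Bd2.singleton {P : ℕ} {u : List ℕ} (h : Bd P u) : Bd2 P [u] :=
  fun v hv => by rwa [List.mem_singleton.1 hv]

theorem bd_vadd (P : ℕ) (u v : List ℕ) : Bd P (vadd P u v) := fun c hc => by
  obtain ⟨a, _, b, _, rfl⟩ := mem_zipWith hc
  exact Nat.mod_lt _ (by positivity)

theorem bd_vsub (P : ℕ) (u v : List ℕ) : Bd P (vsub P u v) := fun c hc => by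
  obtain ⟨a, _, b, _, rfl⟩ := mem_zipWith hc
  exact Nat.mod_lt _ (by positivity)

theorem bd_map_negM (P : ℕ) (u : List ℕ) : Bd P (u.map (negM P)) := fun c hc => by
  obtain ⟨a, _, rfl⟩ := List.mem_map.1 hc
  exact Nat.mod_lt _ (by positivity)


theorem Bd.rotc {P : ℕ} {u : List ℕ} (h : Bd P u) (c : ℕ) : Bd P (rotc P c u) :=
  (bd_map_negM P _).append (h.take c)

theorem bd2_zip_vadd (P : ℕ) (u v : List (List ℕ)) : Bd2 P (List.zipWith (vadd P) u v) :=
  fun c hc => by
    obtain ⟨a, _, b, _, rfl⟩ := mem_zipWith hc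
    exact bd_vadd P a b

theorem bd2_zip_vsub (P : ℕ) (u v : List (List ℕ)) : Bd2 P (List.zipWith (vsub P) u v) :=
  fun c hc => by
    obtain ⟨a, _, b, _, rfl⟩ := mem_zipWith hc
    exact bd_vsub P a b

theorem Bd2.map_rotc {P : ℕ} {L : List (List ℕ)} (h : Bd2 P L) (c : ℕ) :
    Bd2 P (L.map (rotc P c)) := fun u hu => by
  obtain ⟨a, ha, rfl⟩ := List.mem_map.1 hu
  exact (h a ha).rotc c

theorem bd2_fwdP (P t c : ℕ) (a : List (List ℕ)) : Bd2 P (fwdP P t c a) := bd2_zip_vadd _ _ _

theorem bd2_fwdM (P t c : ℕ) (a : List (List ℕ)) : Bd2 P (fwdM P t c a) := bd2_zip_vsub _ _ _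

theorem bd2_join (P f : ℕ) (u v : List (List ℕ)) : Bd2 P (join P f u v) := fun c hc =>
  (List.mem_append.1 hc).elim (bd2_zip_vadd P u v c) ((bd2_zip_vsub P v u).map_rotc f c)

theorem mem_of_mem_cut {α : Type} {B t : ℕ} {l u : List α} (hu : u ∈ cut B t l) {c : α}
    (hc : c ∈ u) : c ∈ l := by
  induction t generalizing l with
  | zero => simp [cut] at hu
  | succ t ih =>
    rcases List.mem_cons.1 hu with rfl | hu
    · exact List.mem_of_mem_take hc
    · exact List.mem_of_mem_drop (ih hu)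

theorem Bd.emb {P : ℕ} {u : List ℕ} (h : Bd P u) (B t : ℕ) : Bd2 P (emb B t u) := fun v hv => by
  obtain ⟨a, ha, rfl⟩ := List.mem_map.1 hv
  exact Bd.append (fun c hc => h c (mem_of_mem_cut ha hc)) (Bd.replicate_zero P B)

theorem bd2_nuss (P y k e : ℕ) (a b : List (List ℕ)) : Bd2 P (nuss P y k e a b) := by
  rcases k with _ | k
  · by_cases hy : y = 0
    · subst hy
      rw [nuss_zero_zero]
      exact Bd2.singleton (bd_vadd _ _ _)
    · rw [nuss_pos_zero P hy]
      exact Bd2.singleton (bd_vadd _ _ _)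
  · rw [nuss_succ]
    exact bd2_join _ _ _ _

/-! ### the negacyclic product -/

/-- `2 ^ scl y * a * b` modulo `z ^ (2 ^ (y + 2)) + 1` and `2 ^ P` -/
def nmul (P y : ℕ) (a b : List ℕ) : List ℕ := (nuss P y 0 0 [a] [b]).flatten

theorem nmul_bd (P y : ℕ) (a b : List ℕ) : Bd P (nmul P y a b) := (bd2_nuss _ _ _ _ _ _).flatten

theorem nmul_length (P : ℕ) {y : ℕ} {a b : List ℕ} (ha : a.length = 2 ^ (y + 2))
    (hb : b.length = 2 ^ (y + 2)) : (nmul P y a b).length = 2 ^ (y + 2) := by
  have h := (nuss_spec P y 0 0 [a] [b] (Shape.singleton ha) (Shape.singleton hb) (by simp)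
    (by omega) (by omega)).1
  rw [nmul, h.length_flatten, pow_zero, one_mul]

theorem ev_nmul {A : Type} [CommRing A] {P y : ℕ} {a b : List ℕ} (ha : a.length = 2 ^ (y + 2))
    (hb : b.length = 2 ^ (y + 2)) {z : A} (h2 : (2 : A) ^ P = 0) (hz : z ^ 2 ^ (y + 2) = -1) :
    ev z (nmul P y a b) = 2 ^ scl y * (ev z a * ev z b) := by
  obtain ⟨hs, hv⟩ := nuss_spec P y 0 0 [a] [b] (Shape.singleton ha) (Shape.singleton hb)
    (by simp) (by omega) (by omega)
  have h := hv A z 1 h2 hz
  rw [pow_zero] at hs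
  rw [hs.eq_singleton] at h
  simpa [sub_eq_zero, nmul] using h

theorem scl_le (y : ℕ) : scl y ≤ 2 * y := by
  have : y.size ≤ y := Nat.size_le.2 Nat.lt_two_pow_self
  unfold scl
  omega

theorem two_pow_size_le (y : ℕ) : 2 ^ y.size ≤ 2 * y + 1 := by
  rcases Nat.eq_zero_or_pos y with rfl | hy
  · simp
  · have h1 : 0 < y.size := Nat.size_pos.2 hy
    have h2 : 2 ^ (y.size - 1) ≤ y := Nat.lt_size.1 (by omega)
    obtain ⟨s, hs⟩ : ∃ s, y.size = s + 1 := ⟨y.size - 1, by omega⟩
    rw [hs] at h2 ⊢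
    rw [pow_succ]
    simp only [Nat.add_sub_cancel] at h2
    omega

/-! ### exact convolution -/

theorem coeff_ev {A : Type} [CommSemiring A] (u : List ℕ) (i : ℕ) :
    (ev (X : A[X]) u).coeff i = ((u.getD i 0 : ℕ) : A) := by
  induction u generalizing i with
  | nil => simp
  | cons c u ih =>
    rw [ev_cons, coeff_add, ← C_eq_natCast]
    cases i with
    | zero => simp
    | succ i => rw [coeff_C_succ, coeff_X_mul, ih, zero_add, List.getD_cons_succ]

theorem coeff_ev_mul {A : Type} [CommSemiring A] (a b : List ℕ) (k : ℕ) :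
    (ev (X : A[X]) a * ev X b).coeff k =
      ((∑ i ∈ Finset.range (k + 1), a.getD i 0 * b.getD (k - i) 0 : ℕ) : A) := by
  rw [coeff_mul, Finset.Nat.sum_antidiagonal_eq_sum_range_succ
    (fun i j => (ev (X : A[X]) a).coeff i * (ev (X : A[X]) b).coeff j)]
  simp only [coeff_ev]
  push_cast
  rfl

@[simp] theorem length_conv (a b : List ℕ) : (conv a b).length = a.length + b.length := by
  simp [conv]

/-- the entries of the convolution, for every index -/
theorem getD_conv (a b : List ℕ) (k : ℕ) :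
    (conv a b).getD k 0 = ∑ i ∈ Finset.range (k + 1), a.getD i 0 * b.getD (k - i) 0 := by
  by_cases hk : k < a.length + b.length
  · rw [List.getD_eq_getElem _ _ (by simpa using hk)]
    simp [conv]
  · rw [List.getD_eq_default _ _ (by simpa using hk)]
    refine (Finset.sum_eq_zero (fun i hi => ?_)).symm
    by_cases hia : i < a.length
    · rw [List.getD_eq_default b _ (by omega), mul_zero]
    · rw [List.getD_eq_default a _ (by omega), zero_mul]

theorem ev_conv {A : Type} [CommSemiring A] (z : A) (a b : List ℕ) :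
    ev z (conv a b) = ev z a * ev z b := by
  have h : ev (X : A[X]) (conv a b) = ev X a * ev X b := by
    ext k
    rw [coeff_ev, coeff_ev_mul, getD_conv]
  have h1 := congrArg (evalRingHom z) h
  simpa only [map_mul, map_ev, coe_evalRingHom, eval_X] using h1

theorem conv_sum_le {p q : ℕ} {a b : List ℕ} (ha : Bd p a) (hb : Bd q b) (k : ℕ) :
    ∑ i ∈ Finset.range (k + 1), a.getD i 0 * b.getD (k - i) 0 ≤ a.length * (2 ^ (p + q) - 1) := by
  have h1 : ∑ i ∈ Finset.range (k + 1), a.getD i 0 * b.getD (k - i) 0 ≤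
      ∑ i ∈ Finset.range a.length, a.getD i 0 * b.getD (k - i) 0 := by
    refine Finset.sum_le_sum_of_ne_zero (fun i _ hi => Finset.mem_range.2 ?_)
    by_contra h
    exact hi (by rw [List.getD_eq_default a _ (by omega), zero_mul])
  refine h1.trans ?_
  have h2 := Finset.sum_le_card_nsmul (Finset.range a.length)
    (fun i => a.getD i 0 * b.getD (k - i) 0) (2 ^ (p + q) - 1) (fun i _ => by
      have := Nat.mul_lt_mul'' (ha.getD i) (hb.getD (k - i))
      rw [← pow_add] at this
      omega)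
  simpa using h2

/-- the entries of the convolution are small -/
theorem conv_bd {p q s : ℕ} {a b : List ℕ} (ha : Bd p a) (hb : Bd q b) (hs : a.length ≤ 2 ^ s) :
    Bd (p + q + s) (conv a b) := by
  intro c hc
  obtain ⟨k, _, rfl⟩ := List.mem_map.1 hc
  refine (conv_sum_le ha hb k).trans_lt ?_
  have h1 : 0 < 2 ^ (p + q) := by positivity
  have h2 : 0 < 2 ^ s := by positivity
  calc a.length * (2 ^ (p + q) - 1) ≤ 2 ^ s * (2 ^ (p + q) - 1) := Nat.mul_le_mul_right _ hs
    _ < 2 ^ s * 2 ^ (p + q) := Nat.mul_lt_mul_of_pos_left (by omega) h2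
    _ = 2 ^ (p + q + s) := by ring

/-- the exact convolution through one negacyclic product -/
theorem conv_eq {P p y : ℕ} {a b : List ℕ} (hl : a.length + b.length ≤ 2 ^ (y + 2))
    (ha : Bd p a) (hb : Bd p b) (hP : 2 * p + (y + 2) + scl y ≤ P) :
    conv a b = ((nmul P y (a ++ List.replicate (2 ^ (y + 2) - a.length) 0)
      (b ++ List.replicate (2 ^ (y + 2) - b.length) 0)).take (a.length + b.length)).map
        (fun c => c / 2 ^ scl y) := by
  set n := 2 ^ (y + 2) with hn
  set a' := a ++ List.replicate (n - a.length) 0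
  set b' := b ++ List.replicate (n - b.length) 0
  have hla : a'.length = n := by simp [a']; omega
  have hlb : b'.length = n := by simp [b']; omega
  have hlen := nmul_length P hla hlb
  have h2 : (2 : ZMod (2 ^ P)) ^ P = 0 := by
    have := ZMod.natCast_self (2 ^ P)
    rwa [Nat.cast_pow, Nat.cast_ofNat] at this
  have key : ev (X : (ZMod (2 ^ P))[X]) (nmul P y a' b') =
      C (2 ^ scl y) * ev X (conv a b) := by
    refine eq_of_mk_eq (n := n) (by positivity)
      ((degree_ev_lt _).trans_le (by rw [hlen]))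
      (degree_C_mul_lt _ ((degree_ev_lt _).trans_le (by rw [length_conv]; exact_mod_cast hl))) ?_
    have h3 := ev_nmul (P := P) hla hlb (z := AdjoinRoot.root (X ^ n + 1 : (ZMod (2 ^ P))[X]))
      (by rw [← map_ofNat (AdjoinRoot.of _) 2, ← map_pow, h2, map_zero]) (root_pow n)
    simp only [map_mul, map_ev, AdjoinRoot.mk_X, map_pow, map_ofNat, ev_conv]
    rw [h3]
    simp [a', b', ev_append]
  refine List.ext_getElem (by simp [hlen]; omega) (fun k hk hk' => ?_)
  have hkn : k < (nmul P y a' b').length := by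
    rw [hlen]; rw [length_conv] at hk; omega
  have h4 := congrArg (fun q => coeff q k) key
  simp only [coeff_C_mul, coeff_ev] at h4
  rw [List.getD_eq_getElem _ _ hkn, List.getD_eq_getElem _ _ hk] at h4
  have h5 : (nmul P y a' b')[k] = 2 ^ scl y * (conv a b)[k] := by
    have h6 : ((nmul P y a' b')[k] : ℕ) ≡ 2 ^ scl y * (conv a b)[k] [MOD 2 ^ P] := by
      rw [← ZMod.natCast_eq_natCast_iff, h4]
      push_cast
      rfl
    refine Nat.ModEq.eq_of_lt_of_lt h6 (nmul_bd _ _ _ _ _ (List.getElem_mem _)) ?_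
    have h7 := conv_bd (s := y + 2) ha hb (by omega) _ (List.getElem_mem hk)
    calc 2 ^ scl y * (conv a b)[k] < 2 ^ scl y * 2 ^ (p + p + (y + 2)) :=
          Nat.mul_lt_mul_of_pos_left h7 (by positivity)
      _ = 2 ^ (scl y + (p + p + (y + 2))) := by rw [← pow_add]
      _ ≤ 2 ^ P := Nat.pow_le_pow_right (by norm_num) (by omega)
  rw [List.getElem_map, List.getElem_take, h5, Nat.mul_div_cancel_left _ (by positivity)]

end Crest.Agent.X326.Mul
end

-- ▼ part X326/Mul/Cost
section

/-!
# Volumes, sizes and the cost recurrence of the Schoenhage-Nussbaumer recursion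
-/

set_option autoImplicit false

namespace Crest.Agent.X326.Mul

open Crest.Agent.Lib.PT

/-- the volume of a node of the recursion -/
def vol (P y k : ℕ) : ℕ := 2 ^ k * (2 ^ (y + 2) * (P + 1))

/-- the total cost of a node of the recursion, `μ` is the cost per bit of the leaves -/
def tot (μ P y k : ℕ) : ℕ := vol P y k * (2 * k + 2 ^ y.size * (μ + 10 * y.size + 2))

theorem vol_pos (P y k : ℕ) : 0 < vol P y k := by unfold vol; positivity

theorem vol_succ (P y k : ℕ) : vol P y (k + 1) = 2 * vol P y k := by unfold vol; ring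

theorem vol_emb (P y : ℕ) : vol P (y / 2) ((y + 1) / 2 + 1) = 2 * vol P y 0 := by
  unfold vol
  have h : 2 ^ ((y + 1) / 2 + 1) * 2 ^ (y / 2 + 2) = 2 * 2 ^ (y + 2) := by
    rw [← pow_add, ← pow_succ']
    congr 1
    omega
  rw [← mul_assoc, h]
  ring

theorem tot_succ (μ P y k : ℕ) :
    vol P y (k + 1) + 1 + (tot μ P y k + tot μ P y k) ≤ tot μ P y (k + 1) := by
  have h := vol_pos P y k
  unfold tot
  rw [vol_succ]
  generalize vol P y k = V at h ⊢
  generalize 2 ^ y.size * (μ + 10 * y.size + 2) = E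
  nlinarith

theorem tot_emb (μ P : ℕ) {y : ℕ} (hy : y ≠ 0) :
    vol P y 0 + 1 + tot μ P (y / 2) ((y + 1) / 2 + 1) ≤ tot μ P y 0 := by
  have h := vol_pos P y 0
  have hs : y.size = (y / 2).size + 1 := by
    conv_lhs => rw [← Nat.bit_bodd_div2 y]
    rw [Nat.size_bit (by rwa [Nat.bit_bodd_div2]), Nat.div2_val]
  have hlt : y < 2 ^ y.size := Nat.lt_size_self y
  unfold tot
  rw [vol_emb, hs] at *
  generalize vol P y 0 = V at h ⊢
  generalize (y / 2).size = s at *
  rw [pow_succ] at hlt ⊢
  have h1 : 0 < 2 ^ s := by positivity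
  generalize 2 ^ s = E at *
  have h2 : 4 * ((y + 1) / 2 + 1) + 2 ≤ 20 * E := by omega
  generalize (y + 1) / 2 + 1 = k at *
  have h3 : V * (4 * k + 2) ≤ V * (20 * E) := Nat.mul_le_mul_left _ h2
  nlinarith

theorem tot_base (μ P : ℕ) : vol P 0 0 * (μ + 1) + 1 ≤ tot μ P 0 0 := by
  have h := vol_pos P 0 0
  unfold tot
  generalize vol P 0 0 = V at h ⊢
  simp only [Nat.size_zero]
  nlinarith

theorem tot_zero_le (μ P y : ℕ) :
    tot μ P y 0 ≤ 10 * (2 ^ (y + 2) * (P + 1) * (2 ^ y.size * (μ + y.size + 1))) := by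
  unfold tot vol
  generalize 2 ^ (y + 2) * (P + 1) = V
  generalize 2 ^ y.size = E
  have : E * (μ + 10 * y.size + 2) ≤ 10 * (E * (μ + y.size + 1)) := by nlinarith
  nlinarith

theorem pow_le_vol (P y k : ℕ) : 2 ^ (y + 2) ≤ vol P y k := by
  unfold vol
  calc 2 ^ (y + 2) = 1 * (2 ^ (y + 2) * 1) := by ring
    _ ≤ _ := Nat.mul_le_mul Nat.one_le_two_pow (Nat.mul_le_mul_left _ (by omega))

theorem pow_le_vol' (P y k : ℕ) : 2 ^ k ≤ vol P y k :=
  Nat.le_mul_of_pos_right _ (by positivity)

theorem P_le_vol (P y k : ℕ) : P + 1 ≤ vol P y k := by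
  unfold vol
  calc P + 1 = 1 * (1 * (P + 1)) := by ring
    _ ≤ _ := Nat.mul_le_mul Nat.one_le_two_pow (Nat.mul_le_mul_right _ Nat.one_le_two_pow)

theorem y_le_vol (P y k : ℕ) : y + 2 ≤ vol P y k :=
  Nat.lt_two_pow_self.le.trans (pow_le_vol P y k)

theorem k_le_vol (P y k : ℕ) : k ≤ vol P y k :=
  Nat.lt_two_pow_self.le.trans (pow_le_vol' P y k)

theorem size_le_self (n : ℕ) : n.size ≤ n := Nat.size_le.2 Nat.lt_two_pow_self


theorem sz_le_of_lt {P c : ℕ} (h : c < 2 ^ P) : sz c ≤ P := by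
  rw [sz_nat]; exact Nat.size_le.2 h

theorem Bd.sz_le {P : ℕ} {u : List ℕ} (h : Bd P u) : sz u ≤ u.length * (2 * P + 1) :=
  sz_list_le (fun c hc => sz_le_of_lt (h c hc))

theorem Shape.sz_le {P t n : ℕ} {L : List (List ℕ)} (hs : Shape t n L) (h : Bd2 P L)
    (hn : 0 < n) : sz L ≤ 5 * (t * (n * (P + 1))) := by
  have h1 : sz L ≤ L.length * (2 * (n * (2 * P + 1)) + 1) :=
    sz_list_le (fun u hu => by have := (h u hu).sz_le; rwa [hs.2 u hu] at this)
  rw [hs.1] at h1
  have h2 : 2 * (n * (2 * P + 1)) + 1 ≤ 5 * (n * (P + 1)) := by nlinarith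
  calc sz L ≤ t * (5 * (n * (P + 1))) := h1.trans (Nat.mul_le_mul_left _ h2)
    _ = _ := by ring

end Crest.Agent.X326.Mul
end

-- ▼ part X326/Mul/BoostPure
section

/-!
# The base multiplier: widths, digits and the cost formulas (no machines)

* `wid l` : the largest binary size of an entry of `l`.
* `digs b K x` : the first `K` digits of `x` in base `2 ^ b`.
* `convCost g n p` : cost of one exact convolution (total length `n`, entries of `p` bits) when
  the products of `m`-bit numbers cost `g m` per bit.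
* `boost g` : the cost per bit of the multiplier built from that convolution.
-/

set_option autoImplicit false

namespace Crest.Agent.X326.Mul

/-! ### widths -/

/-- the largest binary size of an entry -/
def wid (l : List ℕ) : ℕ := l.foldl (fun m c => max m c.size) 0

theorem foldl_wid_le {p : ℕ} {l : List ℕ} (h : Bd p l) {m : ℕ} (hm : m ≤ p) :
    l.foldl (fun m c => max m c.size) m ≤ p := by
  induction l generalizing m with
  | nil => exact hm
  | cons c l ih =>
    rw [List.foldl_cons]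
    exact ih (fun d hd => h d (by simp [hd])) (max_le hm (Nat.size_le.2 (h c (by simp))))

theorem wid_le {p : ℕ} {l : List ℕ} (h : Bd p l) : wid l ≤ p := foldl_wid_le h (Nat.zero_le _)

theorem le_foldl_wid (l : List ℕ) (m : ℕ) : m ≤ l.foldl (fun m c => max m c.size) m ∧
    ∀ c ∈ l, c.size ≤ l.foldl (fun m c => max m c.size) m := by
  induction l generalizing m with
  | nil => simp
  | cons c l ih =>
    rw [List.foldl_cons]
    obtain ⟨h1, h2⟩ := ih (max m c.size)
    refine ⟨(le_max_left _ _).trans h1, fun d hd => ?_⟩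
    rcases List.mem_cons.1 hd with rfl | hd
    · exact (le_max_right _ _).trans h1
    · exact h2 d hd

theorem size_le_wid {l : List ℕ} {c : ℕ} (hc : c ∈ l) : c.size ≤ wid l := (le_foldl_wid l 0).2 c hc

theorem bd_wid (l : List ℕ) : Bd (wid l) l := fun _ hc => Nat.size_le.1 (size_le_wid hc)


/-! ### digits -/

/-- the first `K` digits in base `2 ^ b` -/
def digs (b K x : ℕ) : List ℕ := (List.range K).map (fun i => x / 2 ^ (b * i) % 2 ^ b)

@[simp] theorem length_digs (b K x : ℕ) : (digs b K x).length = K := by simp [digs]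

theorem bd_digs (b K x : ℕ) : Bd b (digs b K x) := fun c hc => by
  obtain ⟨i, _, rfl⟩ := List.mem_map.1 hc
  exact Nat.mod_lt _ (by positivity)

theorem digs_succ (b K x : ℕ) : digs b (K + 1) x = x % 2 ^ b :: digs b K (x / 2 ^ b) := by
  unfold digs
  rw [List.range_succ_eq_map, List.map_cons, List.map_map]
  congr 1
  · simp
  · refine List.map_congr_left (fun i _ => ?_)
    simp only [Function.comp_apply, Nat.succ_eq_add_one]
    rw [Nat.div_div_eq_div_mul, ← pow_add]
    congr 3
    ring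

theorem ev_digs_mod (b K x : ℕ) : ev (2 ^ b) (digs b K x) = x % 2 ^ (b * K) := by
  induction K generalizing x with
  | zero => simp [digs, Nat.mod_one]
  | succ K ih =>
    rw [digs_succ, ev_cons, ih, mul_add, mul_one, pow_add, mul_comm (2 ^ (b * K)), Nat.mod_mul]
    rfl

theorem ev_digs {b K x : ℕ} (h : x < 2 ^ (b * K)) : ev (2 ^ b) (digs b K x) = x := by
  rw [ev_digs_mod, Nat.mod_eq_of_lt h]

/-- the product through one convolution of digit lists -/
theorem ev_conv_digs {b K x y : ℕ} (hx : x < 2 ^ (b * K)) (hy : y < 2 ^ (b * K)) :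
    ev (2 ^ b) (conv (digs b K x) (digs b K y)) = x * y := by
  rw [ev_conv, ev_digs hx, ev_digs hy]

/-! ### sizes -/

theorem size_mono {a b : ℕ} (h : a ≤ b) : a.size ≤ b.size := Nat.size_le_size h

theorem size_mul_le (a b : ℕ) : (a * b).size ≤ a.size + b.size := by
  rw [Nat.size_le, pow_add]
  exact Nat.mul_lt_mul'' (Nat.lt_size_self a) (Nat.lt_size_self b)

theorem size_add_le (a b : ℕ) : (a + b).size ≤ a.size + b.size := by
  rcases Nat.eq_zero_or_pos a with rfl | ha
  · simp
  rcases Nat.eq_zero_or_pos b with rfl | hb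
  · simp
  rw [Nat.size_le, pow_add]
  have h1 := Nat.lt_size_self a
  have h2 := Nat.lt_size_self b
  generalize 2 ^ a.size = A at *
  generalize 2 ^ b.size = B at *
  nlinarith

theorem size_succ_le (a : ℕ) : (a + 1).size ≤ a.size + 1 := by
  simpa using size_add_le a 1

/-! ### cost formulas -/

/-- cost of one exact convolution: total length `n`, entries below `2 ^ p` -/
def convCost (g : ℕ → ℕ) (n p : ℕ) : ℕ :=
  (n + 1) * (p + n.size + 1) * ((n.size + 1) * (g (6 * (p + n.size + 1)) + n.size.size + 1))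

theorem convCost_mono {g : ℕ → ℕ} (hg : Monotone g) {n n' p p' : ℕ} (hn : n ≤ n') (hp : p ≤ p') :
    convCost g n p ≤ convCost g n' p' := by
  have h1 := size_mono hn
  have h2 := size_mono h1
  have h3 : g (6 * (p + n.size + 1)) ≤ g (6 * (p' + n'.size + 1)) := hg (by omega)
  unfold convCost
  gcongr

theorem vol_le_convCost (g : ℕ → ℕ) (n p : ℕ) : (n + 1) * (p + n.size + 1) ≤ convCost g n p :=
  Nat.le_mul_of_pos_right _ (by positivity)

/-- the parameters of the negacyclic product behind a convolution -/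
theorem nmul_cost_le {g : ℕ → ℕ} (hg : Monotone g) (n p : ℕ) :
    2 ^ (n.size + 2) * (2 * p + 3 * n.size + 2 + 1) *
      (2 ^ n.size.size * (g (2 * (2 * p + 3 * n.size + 2)) + n.size.size + 1)) ≤
      48 * convCost g n p := by
  have h1 : 2 ^ (n.size + 2) ≤ 8 * (n + 1) := by
    have := two_pow_size_le n
    rw [pow_add]
    omega
  have h2 : 2 ^ n.size.size ≤ 2 * (n.size + 1) := by
    have := two_pow_size_le n.size
    omega
  have h3 : 2 * p + 3 * n.size + 2 + 1 ≤ 3 * (p + n.size + 1) := by omega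
  have h4 : g (2 * (2 * p + 3 * n.size + 2)) ≤ g (6 * (p + n.size + 1)) := hg (by omega)
  calc _ ≤ 8 * (n + 1) * (3 * (p + n.size + 1)) *
        (2 * (n.size + 1) * (g (6 * (p + n.size + 1)) + n.size.size + 1)) := by gcongr
    _ = 48 * convCost g n p := by unfold convCost; ring

/-- cost per bit of the multiplier built on a multiplier of cost `g` per bit -/
def boost (g : ℕ → ℕ) (m : ℕ) : ℕ := (m.size + 1) * (g (24 * (m.size + 1)) + m.size.size + 1)



/-- the number of digits of width `size m + 1` -/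
def nd (m : ℕ) : ℕ := m / (m.size + 1) + 1

theorem le_mul_nd (m : ℕ) : m ≤ (m.size + 1) * nd m := by
  unfold nd
  exact (Nat.lt_mul_div_succ m (Nat.succ_pos _)).le

theorem nd_le (m : ℕ) : nd m ≤ m + 1 := Nat.succ_le_succ (Nat.div_le_self _ _)

theorem nd_mul_le (m : ℕ) : nd m * (m.size + 1) ≤ 2 * m + 1 := by
  have h1 := Nat.div_mul_le_self m (m.size + 1)
  have h2 := size_le_self m
  unfold nd
  rw [add_mul, one_mul]
  omega

theorem size_two_nd (m : ℕ) : (nd m + nd m).size ≤ m.size + 2 := by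
  rw [Nat.size_le, pow_add]
  have h1 := nd_le m
  have h2 := Nat.lt_size_self m
  omega

theorem nd_le_two_pow (m : ℕ) : nd m ≤ 2 ^ (m.size + 1) := by
  have h1 := nd_le m
  have h2 := Nat.lt_size_self m
  rw [pow_succ]
  omega

theorem convCost_nd {g : ℕ → ℕ} (hg : Monotone g) (m : ℕ) :
    convCost g (nd m + nd m) (m.size + 1) ≤ 216 * ((m + 1) * boost g m) := by
  have h1 := size_two_nd m
  have h2 : (nd m + nd m).size.size ≤ m.size.size + 2 :=
    (size_mono h1).trans (size_add_le _ 2)
  have h3 : g (6 * (m.size + 1 + (nd m + nd m).size + 1)) ≤ g (24 * (m.size + 1)) :=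
    hg (by omega)
  have h4 : (nd m + nd m + 1) * (m.size + 1 + (nd m + nd m).size + 1) ≤ 24 * (m + 1) := by
    have h5 := nd_mul_le m
    have h6 : 1 ≤ nd m := Nat.succ_pos _
    calc _ ≤ (3 * nd m) * (4 * (m.size + 1)) := Nat.mul_le_mul (by omega) (by omega)
      _ = 12 * (nd m * (m.size + 1)) := by ring
      _ ≤ _ := by omega
  calc _ ≤ 24 * (m + 1) * ((3 * (m.size + 1)) *
        (3 * (g (24 * (m.size + 1)) + m.size.size + 1))) :=
        Nat.mul_le_mul h4 (Nat.mul_le_mul (by omega) (by omega))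
    _ = _ := by unfold boost; ring

/-- cost per bit after one round -/
def g1 (m : ℕ) : ℕ := (m.size + 1) ^ 2

/-- cost per bit after two rounds -/
def g2 (m : ℕ) : ℕ := (m.size + 1) * (m.size.size + 1) ^ 2

theorem g1_mono : Monotone g1 := fun a b h => by
  have := size_mono h
  unfold g1
  gcongr



theorem boost_id_le (m : ℕ) : boost (fun m => m) m ≤ 25 * g1 m := by
  have h := size_le_self m.size
  unfold boost g1
  calc _ ≤ (m.size + 1) * (25 * (m.size + 1)) := Nat.mul_le_mul_left _ (by beta_reduce; omega)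
    _ = _ := by ring

theorem g1_mul_le {c s : ℕ} (k w : ℕ) (hc : c < 2 ^ k) (hs : s ≤ w.size) :
    g1 (c * w) + s + 1 ≤ ((k + 1) ^ 2 + 1) * (w.size + 1) ^ 2 := by
  have h1 : (c * w).size ≤ k + w.size :=
    (size_mul_le c w).trans (Nat.add_le_add_right (Nat.size_le.2 hc) _)
  have h2 : (c * w).size + 1 ≤ (k + 1) * (w.size + 1) := by nlinarith
  have h3 := Nat.pow_le_pow_left h2 2
  rw [mul_pow] at h3
  have h4 : w.size + 1 ≤ (w.size + 1) ^ 2 := Nat.le_self_pow (by norm_num) _
  unfold g1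
  rw [add_mul, one_mul]
  omega


/-- **cost of the exact convolution**: lengths at most `n`, entries below `2 ^ p` -/
def cmu (n p : ℕ) : ℕ :=
  (n + 1) * ((p + n.size + 1) * (n.size + 1) * ((p + n.size).size + 1) ^ 2)

theorem cmu_mono {n n' p p' : ℕ} (hn : n ≤ n') (hp : p ≤ p') : cmu n p ≤ cmu n' p' := by
  have h1 := size_mono hn
  have h2 : (p + n.size).size ≤ (p' + n'.size).size := size_mono (by omega)
  unfold cmu
  gcongr


theorem convCost_g1_le (n p : ℕ) : convCost g1 n p ≤ 68 * cmu n p := by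
  have h1 := g1_mul_le (c := 6) (s := n.size.size) 3 (p + n.size + 1) (by norm_num)
    (size_mono (by omega))
  have h2 := size_succ_le (p + n.size)
  have h3 : ((p + n.size + 1).size + 1) ^ 2 ≤ (2 * ((p + n.size).size + 1)) ^ 2 :=
    Nat.pow_le_pow_left (by omega) 2
  unfold convCost cmu
  calc _ ≤ (n + 1) * (p + n.size + 1) * ((n.size + 1) *
        (((3 + 1) ^ 2 + 1) * (2 * ((p + n.size).size + 1)) ^ 2)) :=
        Nat.mul_le_mul_left _ (Nat.mul_le_mul_left _ (h1.trans (Nat.mul_le_mul_left _ h3)))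
    _ = _ := by ring

/-- doubling the length costs a constant factor -/
theorem cmu_two_mul (n p : ℕ) : cmu (2 * n) p ≤ 32 * cmu n p := by
  have h1 : (2 * n).size ≤ n.size + 1 := by
    rw [Nat.size_le, pow_succ]
    have := Nat.lt_size_self n
    omega
  have h2 : (p + (2 * n).size).size ≤ (p + n.size).size + 1 :=
    (size_mono (by omega)).trans (size_succ_le _)
  have h3 : ((p + (2 * n).size).size + 1) ^ 2 ≤ (2 * ((p + n.size).size + 1)) ^ 2 :=
    Nat.pow_le_pow_left (by omega) 2
  unfold cmu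
  calc _ ≤ (2 * (n + 1)) * ((2 * (p + n.size + 1)) * (2 * (n.size + 1)) *
        (2 * ((p + n.size).size + 1)) ^ 2) :=
        Nat.mul_le_mul (by omega) (Nat.mul_le_mul (Nat.mul_le_mul (by omega) (by omega)) h3)
    _ = _ := by ring

end Crest.Agent.X326.Mul
end

-- ▼ part X326/Mul/OpsTC
section

/-!
# Running times of the list operations of the Schoenhage-Nussbaumer recursion
-/

set_option autoImplicit false

namespace Crest.Agent.X326.Mul

open Crest.Agent.Lib.PT

/-- multiplication of naturals with `g` the cost per bit -/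
def MulTC (g : ℕ → ℕ) : Prop :=
  TC (fun _ => True) (fun q : ℕ × ℕ => (q.1.size + q.2.size + 1) * g (q.1.size + q.2.size))
    (fun q => q.1 * q.2)

section

variable {α : Type} [PTCode α] {D : Dom α} {T : Cost α}

/-! ### scalars -/

theorem tc_addM {P a b : α → ℕ} (hP : TU D T P) (ha : TC D T a) (hb : TC D T b) :
    TC D T (fun x => addM (P x) (a x) (b x)) := TC.natModTwoPow (TC.natAdd ha hb) hP

theorem tc_negM {P a : α → ℕ} (hP : TU D T P) (ha : TC D T a) :
    TC D T (fun x => negM (P x) (a x)) := TC.natModTwoPow (TC.natSub (TC.twoPow hP) (TC.natModTwoPow ha hP)) hP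

theorem tc_subM {P a b : α → ℕ} (hP : TU D T P) (ha : TC D T a) (hb : TC D T b) :
    TC D T (fun x => subM (P x) (a x) (b x)) := tc_addM hP ha (tc_negM hP hb)

theorem tc_mul {g : ℕ → ℕ} (hm : MulTC g) {a b : α → ℕ} (ha : TC D T a) (hb : TC D T b)
    (h : Bud D T (fun x => ((a x).size + (b x).size + 1) * g ((a x).size + (b x).size))) :
    TC D T (fun x => a x * b x) :=
  TC.comp (f := fun x => (a x, b x)) hm (ha.prodMk hb) (fun _ _ => trivial) h

theorem tc_mulM {g : ℕ → ℕ} (hm : MulTC g) {P a b : α → ℕ} (hP : TU D T P) (ha : TC D T a)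
    (hb : TC D T b)
    (h : Bud D T (fun x => ((a x).size + (b x).size + 1) * g ((a x).size + (b x).size))) :
    TC D T (fun x => mulM (P x) (a x) (b x)) := TC.natModTwoPow (tc_mul hm ha hb h) hP

/-! ### `zipWith` with a context -/

theorem tc_zipCtx {κ β γ δ : Type} [PTCode κ] [PTCode β] [PTCode γ] [PTCode δ]
    {S : κ × β × γ → ℕ} {f : κ → β → γ → δ}
    (hf : TC (fun _ => True) S (fun q : κ × β × γ => f q.1 q.2.1 q.2.2)) {c : α → κ}
    {u : α → List β} {v : α → List γ} (hc : TC D T c) (hu : TC D T u) (hv : TC D T v)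
    (B : α → ℕ) (h : ∀ x, D x → ∀ a ∈ u x, ∀ b ∈ v x, S (c x, a, b) ≤ B x)
    (hB : Bud D T (fun x => min (u x).length (v x).length * (B x + sz (c x)))) :
    TC D T (fun x => List.zipWith (f (c x)) (u x) (v x)) := by
  refine (TC.mapCtx_le (f := fun k (p : β × γ) => f k p.1 p.2) hf hc (hu.zip hv) B 0
    (fun x hx p hp => ⟨trivial, ?_⟩) (hB.mono (fun x _ => ?_)) (hB.mono (fun x _ => ?_))).of_eq
    (fun x => ?_)
  · have := List.of_mem_zip (a := p.1) (b := p.2) hp
    simpa using h x hx _ this.1 _ this.2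
  · rw [List.length_zip]; exact Nat.mul_le_mul_left _ (by omega)
  · rw [List.length_zip]; exact Nat.mul_le_mul_left _ (by omega)
  · rw [← List.map_uncurry_zip_eq_zipWith]; rfl

/-! ### vectors -/

theorem tc_vadd {P : α → ℕ} {u v : α → List ℕ} (hP : TU D T P) (hu : TC D T u) (hv : TC D T v)
    (hb : Bud D T (fun x => min (u x).length (v x).length * P x)) :
    TC D T (fun x => vadd (P x) (u x) (v x)) :=
  tc_zipCtx (f := fun (k : Un) a b => addM k.val a b) (S := fun _ => 0)
    (tc_addM (TU.val TC.id.fst) TC.id.snd.fst TC.id.snd.snd) hP hu hv (fun _ => 0)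
    (fun _ _ _ _ _ _ => le_rfl) (hb.mono (fun x _ => by simp))

theorem tc_vsub {P : α → ℕ} {u v : α → List ℕ} (hP : TU D T P) (hu : TC D T u) (hv : TC D T v)
    (hb : Bud D T (fun x => min (u x).length (v x).length * P x)) :
    TC D T (fun x => vsub (P x) (u x) (v x)) :=
  tc_zipCtx (f := fun (k : Un) a b => subM k.val a b) (S := fun _ => 0)
    (tc_subM (TU.val TC.id.fst) TC.id.snd.fst TC.id.snd.snd) hP hu hv (fun _ => 0)
    (fun _ _ _ _ _ _ => le_rfl) (hb.mono (fun x _ => by simp))

theorem tc_map_negM {P : α → ℕ} {u : α → List ℕ} (hP : TU D T P) (hu : TC D T u)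
    (hb : Bud D T (fun x => (u x).length * P x)) : TC D T (fun x => (u x).map (negM (P x))) :=
  TC.mapCtx_lin (f := fun (k : Un) a => negM k.val a) (tc_negM (TU.val TC.id.fst) TC.id.snd) hP hu
    (hb.mono (fun x _ => by simp))

theorem tc_rotc {P c : α → ℕ} {u : α → List ℕ} (hP : TU D T P) (hc : TU D T c) (hu : TC D T u)
    (hb : Bud D T (fun x => (u x).length * P x)) : TC D T (fun x => rotc (P x) (c x) (u x)) :=
  (tc_map_negM hP (TC.drop hc hu)
    (hb.mono (fun x _ => Nat.mul_le_mul_right _ (by simp)))).append (TC.take hc hu)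

/-! ### arrays -/

theorem tc_zip_vadd {P : α → ℕ} {u v : α → List (List ℕ)} (hP : TU D T P) (hu : TC D T u)
    (hv : TC D T v) (n : α → ℕ)
    (hn : ∀ x, D x → ∀ a ∈ u x, ∀ b ∈ v x, min a.length b.length ≤ n x)
    (hb : Bud D T (fun x => min (u x).length (v x).length * ((n x + 1) * (P x + 1)))) :
    TC D T (fun x => List.zipWith (vadd (P x)) (u x) (v x)) :=
  tc_zipCtx (f := fun (k : Un) a b => vadd k.val a b)
    (S := fun q => min q.2.1.length q.2.2.length * q.1.val)
    (tc_vadd (TU.val TC.id.fst) TC.id.snd.fst TC.id.snd.snd Bud.self) hP hu hv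
    (fun x => n x * P x) (fun x hx a ha b hb => Nat.mul_le_mul_right _ (hn x hx a ha b hb))
    (hb.mono (fun x _ => Nat.mul_le_mul_left _ (by simp only [sz_un]; nlinarith)))

theorem tc_zip_vsub {P : α → ℕ} {u v : α → List (List ℕ)} (hP : TU D T P) (hu : TC D T u)
    (hv : TC D T v) (n : α → ℕ)
    (hn : ∀ x, D x → ∀ a ∈ u x, ∀ b ∈ v x, min a.length b.length ≤ n x)
    (hb : Bud D T (fun x => min (u x).length (v x).length * ((n x + 1) * (P x + 1)))) :
    TC D T (fun x => List.zipWith (vsub (P x)) (u x) (v x)) :=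
  tc_zipCtx (f := fun (k : Un) a b => vsub k.val a b)
    (S := fun q => min q.2.1.length q.2.2.length * q.1.val)
    (tc_vsub (TU.val TC.id.fst) TC.id.snd.fst TC.id.snd.snd Bud.self) hP hu hv
    (fun x => n x * P x) (fun x hx a ha b hb => Nat.mul_le_mul_right _ (hn x hx a ha b hb))
    (hb.mono (fun x _ => Nat.mul_le_mul_left _ (by simp only [sz_un]; nlinarith)))

theorem tc_map_rotc {P c : α → ℕ} {a : α → List (List ℕ)} (hP : TU D T P) (hc : TU D T c)
    (ha : TC D T a) (n : α → ℕ) (hn : ∀ x, D x → c x ≤ n x ∧ ∀ u ∈ a x, u.length ≤ n x)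
    (hb : Bud D T (fun x => (a x).length * ((n x + 1) * (P x + 1)))) :
    TC D T (fun x => (a x).map (rotc (P x) (c x))) := by
  refine TC.mapCtx_le (f := fun (k : Un × Un) u => rotc k.1.val k.2.val u) (Q := fun _ => True)
    (S := fun q => q.2.length * q.1.1.val) (c := fun x => (Un.mk (P x), Un.mk (c x)))
    (tc_rotc (TU.val TC.id.fst.fst) (TU.val TC.id.fst.snd) TC.id.snd Bud.self)
    (TC.prodMk hP hc) ha (fun x => n x * P x) 0
    (fun x hx u hu => ⟨trivial, by simpa using Nat.mul_le_mul_right _ ((hn x hx).2 u hu)⟩)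
    (hb.mono (fun x _ => Nat.mul_le_mul_left _ (by nlinarith)))
    ((hb.const_mul 2).mono (fun x hx => ?_))
  have h1 := (hn x hx).1
  have h2 : 2 * P x + 1 + c x ≤ 2 * ((n x + 1) * (P x + 1)) := by nlinarith
  calc (a x).length * sz (Un.mk (P x), Un.mk (c x))
      ≤ (a x).length * (2 * ((n x + 1) * (P x + 1))) :=
        Nat.mul_le_mul_left _ (by simpa using h2)
    _ = _ := by ring

theorem tc_fwdP {P t c : α → ℕ} {a : α → List (List ℕ)} (hP : TU D T P) (ht : TU D T t)
    (hc : TU D T c) (ha : TC D T a) (n : α → ℕ)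
    (hn : ∀ x, D x → c x ≤ n x ∧ ∀ u ∈ a x, u.length ≤ n x)
    (hb : Bud D T (fun x => (a x).length * ((n x + 1) * (P x + 1)))) :
    TC D T (fun x => fwdP (P x) (t x) (c x) (a x)) :=
  tc_zip_vadd hP (TC.take ht ha)
    (tc_map_rotc hP hc (TC.drop ht ha) n
      (fun x hx => ⟨(hn x hx).1, fun u hu => (hn x hx).2 u (List.mem_of_mem_drop hu)⟩)
      (hb.mono (fun x _ => Nat.mul_le_mul_right _ (by simp)))) n
    (fun x hx u hu _ _ => (min_le_left _ _).trans ((hn x hx).2 u (List.mem_of_mem_take hu)))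
    (hb.mono (fun x _ => Nat.mul_le_mul_right _ (by simp)))

theorem tc_fwdM {P t c : α → ℕ} {a : α → List (List ℕ)} (hP : TU D T P) (ht : TU D T t)
    (hc : TU D T c) (ha : TC D T a) (n : α → ℕ)
    (hn : ∀ x, D x → c x ≤ n x ∧ ∀ u ∈ a x, u.length ≤ n x)
    (hb : Bud D T (fun x => (a x).length * ((n x + 1) * (P x + 1)))) :
    TC D T (fun x => fwdM (P x) (t x) (c x) (a x)) :=
  tc_zip_vsub hP (TC.take ht ha)
    (tc_map_rotc hP hc (TC.drop ht ha) n
      (fun x hx => ⟨(hn x hx).1, fun u hu => (hn x hx).2 u (List.mem_of_mem_drop hu)⟩)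
      (hb.mono (fun x _ => Nat.mul_le_mul_right _ (by simp)))) n
    (fun x hx u hu _ _ => (min_le_left _ _).trans ((hn x hx).2 u (List.mem_of_mem_take hu)))
    (hb.mono (fun x _ => Nat.mul_le_mul_right _ (by simp)))

theorem tc_join {P f : α → ℕ} {u v : α → List (List ℕ)} (hP : TU D T P) (hf : TU D T f)
    (hu : TC D T u) (hv : TC D T v) (n : α → ℕ)
    (hn : ∀ x, D x → f x ≤ n x ∧ ∀ w ∈ u x, w.length ≤ n x)
    (hb : Bud D T (fun x => (u x).length * ((n x + 1) * (P x + 1)))) :
    TC D T (fun x => join (P x) (f x) (u x) (v x)) := by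
  refine (tc_zip_vadd hP hu hv n
    (fun x hx a ha _ _ => (min_le_left _ _).trans ((hn x hx).2 a ha))
    (hb.mono (fun x _ => Nat.mul_le_mul_right _ (min_le_left _ _)))).append
    (tc_map_rotc hP hf (tc_zip_vsub hP hv hu n
      (fun x hx _ _ b hb => (min_le_right _ _).trans ((hn x hx).2 b hb))
      (hb.mono (fun x _ => Nat.mul_le_mul_right _ (min_le_right _ _)))) n
      (fun x hx => ⟨(hn x hx).1, fun w hw => ?_⟩)
      (hb.mono (fun x _ => Nat.mul_le_mul_right _ (by simp))))
  obtain ⟨a, _, b, hb', rfl⟩ := mem_zipWith hw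
  rw [length_vsub]
  exact (min_le_right _ _).trans ((hn x hx).2 b hb')

theorem cut_eq_chunks {β : Type} {B t : ℕ} (hB : 0 < B) {l : List β} (h : l.length = t * B) :
    cut B t l = chunks B l := by
  conv_rhs => rw [← flatten_cut h]
  rw [chunks_flatten hB (length_of_mem_cut h)]

theorem tc_cut {β : Type} [PTCode β] {B : α → ℕ} {u : α → List β} (hB : TU D T B)
    (hu : TC D T u) (t : α → ℕ) (h : ∀ x, D x → 0 < B x ∧ (u x).length = t x * B x) :
    TC D T (fun x => cut (B x) (t x) (u x)) :=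
  (TC.chunksTU hB hu).congr (fun x hx => (cut_eq_chunks (h x hx).1 (h x hx).2).symm)

theorem tc_emb {B : α → ℕ} {u : α → List ℕ} (hB : TU D T B) (hu : TC D T u) (t : α → ℕ)
    (h : ∀ x, D x → 0 < B x ∧ (u x).length = t x * B x) :
    TC D T (fun x => emb (B x) (t x) (u x)) :=
  TC.mapCtx_lin (f := fun (z : List ℕ) c => c ++ z) (c := fun x => List.replicate (B x) 0)
    (TC.id.snd.append TC.id.fst) (TC.replicate_const 0 hB) (tc_cut hB hu t h)
    ((Bud.length hu).mono (fun x hx => by
      rw [length_cut, sz_replicate, (h x hx).2]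
      simp [sz_nat]))

theorem length_mul_le_length_flatten {β : Type} {B : ℕ} {L : List (List β)}
    (h : ∀ w ∈ L, B ≤ w.length) : L.length * B ≤ L.flatten.length := by
  induction L with
  | nil => simp
  | cons w L ih =>
    have h1 := h w (by simp)
    have h2 := ih (fun w hw => h w (by simp [hw]))
    rw [List.flatten_cons, List.length_append, List.length_cons, add_mul]
    omega

theorem length_flatten_map_le {β : Type} {L : List (List β)} {g : List β → List β}
    (h : ∀ w, (g w).length ≤ w.length) : (L.map g).flatten.length ≤ L.flatten.length := by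
  induction L with
  | nil => simp
  | cons w L ih =>
    have h1 := h w
    rw [List.map_cons, List.flatten_cons, List.flatten_cons, List.length_append,
      List.length_append]
    omega

theorem tc_unemb {P B c : α → ℕ} {L : α → List (List ℕ)} (hP : TU D T P) (hB : TU D T B)
    (hc : TU D T c) (hL : TC D T L) (h : ∀ x, D x → ∀ w ∈ L x, B x ≤ w.length)
    (hb : Bud D T (fun x => (L x).flatten.length * (P x + 1))) :
    TC D T (fun x => unemb (P x) (B x) (c x) (L x)) := by
  have hC : Bud D T (fun x => (L x).length * sz (Un.mk (B x))) :=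
    (Bud.length hL.flatten).mono (fun x hx => by
      simpa using length_mul_le_length_flatten (h x hx))
  have h1 : TC D T (fun x => (L x).map (List.take (B x))) :=
    TC.mapCtx_lin (f := fun (k : Un) (w : List ℕ) => w.take k.val)
      (TC.take (TU.val TC.id.fst) TC.id.snd) hB hL hC
  have h2 : TC D T (fun x => (L x).map (List.drop (B x))) :=
    TC.mapCtx_lin (f := fun (k : Un) (w : List ℕ) => w.drop k.val)
      (TC.drop (TU.val TC.id.fst) TC.id.snd) hB hL hC
  refine tc_vadd hP h1.flatten (tc_rotc hP hc h2.flatten (hb.mono (fun x _ => ?_)))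
    (hb.mono (fun x _ => ?_))
  · exact Nat.mul_le_mul (length_flatten_map_le (fun w => by simp)) (by omega)
  · exact Nat.mul_le_mul ((min_le_left _ _).trans (length_flatten_map_le (fun w => by simp)))
      (by omega)

/-! ### the base case -/

theorem tc_map_mulM (g : ℕ → ℕ) (hg : Monotone g) (hm : MulTC g) {P c : α → ℕ}
    {v : α → List ℕ} (hP : TU D T P) (hc : TC D T c) (hv : TC D T v)
    (h : ∀ x, D x → c x < 2 ^ P x ∧ Bd (P x) (v x))
    (hb : Bud D T (fun x => (v x).length * ((P x + 1) * (g (2 * P x) + 1)))) :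
    TC D T (fun x => (v x).map (mulM (P x) (c x))) := by
  refine TC.mapCtx_le (f := fun (k : Un × ℕ) b => mulM k.1.val k.2 b) (Q := fun _ => True)
    (S := fun q => (q.1.2.size + q.2.size + 1) * g (q.1.2.size + q.2.size))
    (c := fun x => (Un.mk (P x), c x))
    (tc_mulM hm (TU.val TC.id.fst.fst) TC.id.fst.snd TC.id.snd Bud.self)
    (TC.prodMk hP hc) hv (fun x => 2 * ((P x + 1) * (g (2 * P x) + 1))) 0
    (fun x hx b hb => ⟨trivial, ?_⟩) ((hb.const_mul 2).mono (fun x _ => le_of_eq (by ring)))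
    ((hb.const_mul 3).mono (fun x hx => ?_))
  · have h1 : (c x).size ≤ P x := Nat.size_le.2 (h x hx).1
    have h2 : b.size ≤ P x := Nat.size_le.2 ((h x hx).2 b hb)
    have h3 : g ((c x).size + b.size) ≤ g (2 * P x) := hg (by omega)
    calc ((c x).size + b.size + 1) * g ((c x).size + b.size)
        ≤ (2 * (P x + 1)) * (g (2 * P x) + 1) := Nat.mul_le_mul (by omega) (by omega)
      _ = _ := by ring
  · have h1 : sz (c x) ≤ P x := sz_le_of_lt (h x hx).1
    have h2 : 2 * P x + 1 + sz (c x) ≤ 3 * ((P x + 1) * (g (2 * P x) + 1)) := by nlinarith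
    calc (v x).length * sz (Un.mk (P x), c x)
        ≤ (v x).length * (3 * ((P x + 1) * (g (2 * P x) + 1))) :=
          Nat.mul_le_mul_left _ (by simpa using h2)
      _ = _ := by ring

theorem tc_schoolStep (g : ℕ → ℕ) (hg : Monotone g) (hm : MulTC g) {P c : α → ℕ}
    {v acc : α → List ℕ} (hP : TU D T P) (hv : TC D T v) (hc : TC D T c) (hacc : TC D T acc)
    (h : ∀ x, D x → c x < 2 ^ P x ∧ Bd (P x) (v x) ∧ (v x).length = 4 ∧ (acc x).length = 4)
    (hb : Bud D T (fun x => (P x + 1) * (g (2 * P x) + 1))) :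
    TC D T (fun x => schoolStep (P x) (v x) (c x) (acc x)) :=
  tc_vadd hP
    (tc_map_mulM g hg hm hP hc hv (fun x hx => ⟨(h x hx).1, (h x hx).2.1⟩)
      ((hb.const_mul 4).mono (fun x hx => by rw [(h x hx).2.2.1])))
    (tc_rotc hP (TU.const 3) hacc
      ((hP.bud.const_mul 4).mono (fun x hx => by rw [(h x hx).2.2.2])))
    ((hP.bud.const_mul 4).mono (fun x hx => by simp [(h x hx).2.2.1, (h x hx).2.2.2]))

theorem tc_school (g : ℕ → ℕ) (hg : Monotone g) (hm : MulTC g) {P : α → ℕ} {u v : α → List ℕ}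
    (hP : TU D T P) (hu : TC D T u) (hv : TC D T v)
    (h : ∀ x, D x → Bd (P x) (u x) ∧ Bd (P x) (v x) ∧ (v x).length = 4)
    (hb : Bud D T (fun x => (P x + 1) * (g (2 * P x) + 1))) :
    TC D T (fun x => school (P x) (u x) (v x)) := by
  have hget : ∀ i : ℕ, TC D T (fun x => (u x).getD i 0) := fun i =>
    TC.getD hu (TU.const i) (TC.const 0)
  have h3 : TC D T (fun x => (v x).map (mulM (P x) ((u x).getD 3 0))) :=
    tc_map_mulM g hg hm hP (hget 3) hv (fun x hx => ⟨(h x hx).1.getD 3, (h x hx).2.1⟩)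
      ((hb.const_mul 4).mono (fun x hx => by rw [(h x hx).2.2]))
  have h2 := tc_schoolStep g hg hm hP hv (hget 2) h3
    (fun x hx => ⟨(h x hx).1.getD 2, (h x hx).2.1, (h x hx).2.2, by simp [(h x hx).2.2]⟩) hb
  have h1 := tc_schoolStep g hg hm hP hv (hget 1) h2
    (fun x hx => ⟨(h x hx).1.getD 1, (h x hx).2.1, (h x hx).2.2,
      by simp [schoolStep, (h x hx).2.2]⟩) hb
  exact tc_schoolStep g hg hm hP hv (hget 0) h1
    (fun x hx => ⟨(h x hx).1.getD 0, (h x hx).2.1, (h x hx).2.2,
      by simp [schoolStep, (h x hx).2.2]⟩) hb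

end

end Crest.Agent.X326.Mul
end

-- ▼ part X326/Mul/NussTC
section

/-!
# Running time of the Schoenhage-Nussbaumer recursion
-/

set_option autoImplicit false

namespace Crest.Agent.X326.Mul

open Crest.Agent.Lib.PT

/-- lists of coefficient lists -/
abbrev LL : Type := List (List ℕ)

/-- a node of the recursion: `P, y, k, e` (unary) and the two factors -/
abbrev Node : Type := Un × Un × Un × Un × LL × LL

/-- word length -/
def nP (x : Node) : ℕ := x.1.val
/-- level -/
def ny (x : Node) : ℕ := x.2.1.val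
/-- remaining rounds -/
def nk (x : Node) : ℕ := x.2.2.1.val
/-- exponent -/
def ne (x : Node) : ℕ := x.2.2.2.1.val
/-- first factor -/
def na (x : Node) : LL := x.2.2.2.2.1
/-- second factor -/
def nb (x : Node) : LL := x.2.2.2.2.2

/-- constructor -/
def mkN (P y k e : ℕ) (a b : LL) : Node := (⟨P⟩, ⟨y⟩, ⟨k⟩, ⟨e⟩, a, b)

@[simp] theorem nP_mkN (P y k e : ℕ) (a b : LL) : nP (mkN P y k e a b) = P := rfl
@[simp] theorem ny_mkN (P y k e : ℕ) (a b : LL) : ny (mkN P y k e a b) = y := rfl
@[simp] theorem nk_mkN (P y k e : ℕ) (a b : LL) : nk (mkN P y k e a b) = k := rfl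
@[simp] theorem ne_mkN (P y k e : ℕ) (a b : LL) : ne (mkN P y k e a b) = e := rfl
@[simp] theorem na_mkN (P y k e : ℕ) (a b : LL) : na (mkN P y k e a b) = a := rfl
@[simp] theorem nb_mkN (P y k e : ℕ) (a b : LL) : nb (mkN P y k e a b) = b := rfl

theorem exists_mkN (x : Node) : ∃ P y k e a b, x = mkN P y k e a b :=
  ⟨nP x, ny x, nk x, ne x, na x, nb x, rfl⟩

/-- well-formed nodes -/
structure Valid (x : Node) : Prop where
  sa : Shape (2 ^ nk x) (2 ^ (ny x + 2)) (na x)
  sb : Shape (2 ^ nk x) (2 ^ (ny x + 2)) (nb x)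
  ba : Bd2 (nP x) (na x)
  bb : Bd2 (nP x) (nb x)
  dvd : 2 ^ nk x ∣ ne x
  kle : nk x ≤ ny x + 3
  ele : ne x ≤ 2 * 2 ^ (ny x + 2)

/-- the volume of a node -/
def nvol (x : Node) : ℕ := vol (nP x) (ny x) (nk x)

/-- the value of a node -/
def nval (x : Node) : LL := nuss (nP x) (ny x) (nk x) (ne x) (na x) (nb x)

/-- first child of a butterfly node -/
def childP (x : Node) : Node :=
  mkN (nP x) (ny x) (nk x - 1) (ne x / 2)
    (fwdP (nP x) (2 ^ (nk x - 1)) (2 ^ (ny x + 2) - ne x / 2) (na x))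
    (fwdP (nP x) (2 ^ (nk x - 1)) (2 ^ (ny x + 2) - ne x / 2) (nb x))

/-- second child of a butterfly node -/
def childM (x : Node) : Node :=
  mkN (nP x) (ny x) (nk x - 1) (ne x / 2 + 2 ^ (ny x + 2))
    (fwdM (nP x) (2 ^ (nk x - 1)) (2 ^ (ny x + 2) - ne x / 2) (na x))
    (fwdM (nP x) (2 ^ (nk x - 1)) (2 ^ (ny x + 2) - ne x / 2) (nb x))

/-- the child of a re-embedding node -/
def childE (x : Node) : Node :=
  mkN (nP x) (ny x / 2) ((ny x + 1) / 2 + 1) (2 ^ (ny x / 2 + 2))
    (emb (2 ^ (ny x / 2 + 1)) (2 ^ ((ny x + 1) / 2 + 1)) (na x).flatten)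
    (emb (2 ^ (ny x / 2 + 1)) (2 ^ ((ny x + 1) / 2 + 1)) (nb x).flatten)

/-- frames -/
abbrev Frame : Type := Node × Option LL

/-- entering a node -/
def stepIn (x : Node) : (Frame × Node) ⊕ LL :=
  if nk x = 0 then
    if ny x = 0 then Sum.inr [school (nP x) (na x).flatten (nb x).flatten]
    else Sum.inl ((x, none), childE x)
  else Sum.inl ((x, none), childP x)

/-- after the first call -/
def stepFst (x : Node) (u : LL) : (Frame × Node) ⊕ LL :=
  if nk x = 0 then
    Sum.inr [unemb (nP x) (2 ^ (ny x / 2 + 1)) (2 ^ (ny x + 2) - 2 ^ (ny x / 2 + 1)) u]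
  else Sum.inl ((x, some u), childM x)

/-- after a call -/
def stepOut (p : Frame × LL) : (Frame × Node) ⊕ LL :=
  p.1.2.elim (stepFst p.1.1 p.2) (fun u => Sum.inr (join (nP p.1.1) (ne p.1.1 / 2) u p.2))

/-- the transition function -/
def step : Node ⊕ (Frame × LL) → (Frame × Node) ⊕ LL := Sum.elim stepIn stepOut

/-- the domain after a call -/
def OutOK (p : Frame × LL) : Prop :=
  Valid p.1.1 ∧
    (nk p.1.1 = 0 → Shape (2 ^ ((ny p.1.1 + 1) / 2 + 1)) (2 ^ (ny p.1.1 / 2 + 2)) p.2) ∧
    ∀ u, p.1.2 = some u → u.length ≤ 2 ^ nk p.1.1 ∧ ∀ w ∈ u, w.length ≤ 2 ^ (ny p.1.1 + 2)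

/-- the local cost on entering a node -/
def locIn (g : ℕ → ℕ) (x : Node) : ℕ :=
  if nk x = 0 ∧ ny x = 0 then nvol x * (g (2 * nP x) + 1) else nvol x

/-! ### the transitions are cheap -/

section tc

variable {α : Type} [PTCode α] {D : Dom α} {T : Cost α} {x : α → Node}

theorem tu_nP (hx : TC D T x) : TU D T (fun a => nP (x a)) := TU.val hx.fst
theorem tu_ny (hx : TC D T x) : TU D T (fun a => ny (x a)) := TU.val hx.snd.fst
theorem tu_nk (hx : TC D T x) : TU D T (fun a => nk (x a)) := TU.val hx.snd.snd.fst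
theorem tu_ne (hx : TC D T x) : TU D T (fun a => ne (x a)) := TU.val hx.snd.snd.snd.fst
theorem tc_na (hx : TC D T x) : TC D T (fun a => na (x a)) := hx.snd.snd.snd.snd.fst
theorem tc_nb (hx : TC D T x) : TC D T (fun a => nb (x a)) := hx.snd.snd.snd.snd.snd

theorem tc_mkN {P y k e : α → ℕ} {a b : α → LL} (hP : TU D T P) (hy : TU D T y) (hk : TU D T k)
    (he : TU D T e) (ha : TC D T a) (hb : TC D T b) :
    TC D T (fun c => mkN (P c) (y c) (k c) (e c) (a c) (b c)) :=
  hP.tc.prodMk (hy.tc.prodMk (hk.tc.prodMk (he.tc.prodMk (ha.prodMk hb))))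

theorem tu_n (hx : TC D T x) (hv : Bud D T (fun a => nvol (x a))) :
    TU D T (fun a => 2 ^ (ny (x a) + 2)) :=
  TU.twoPow ((tu_ny hx).add (TU.const 2)) (hv.mono (fun _ _ => pow_le_vol _ _ _))

theorem tu_t (hx : TC D T x) (hv : Bud D T (fun a => nvol (x a))) :
    TU D T (fun a => 2 ^ (nk (x a) - 1)) :=
  TU.twoPow ((tu_nk hx).sub (TU.const 1)) (hv.mono (fun a _ =>
    (Nat.pow_le_pow_right (by norm_num) (Nat.sub_le _ _)).trans (pow_le_vol' _ _ _)))

theorem tu_B (hx : TC D T x) (hv : Bud D T (fun a => nvol (x a))) :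
    TU D T (fun a => 2 ^ (ny (x a) / 2 + 1)) :=
  TU.twoPow (((tu_ny hx).div (TU.const 2)).add (TU.const 1)) (hv.mono (fun a _ =>
    (Nat.pow_le_pow_right (by norm_num) (by omega)).trans (pow_le_vol _ _ _)))

theorem tu_f (hx : TC D T x) : TU D T (fun a => ne (x a) / 2) := (tu_ne hx).div (TU.const 2)

theorem len_mul_le {P y k l : ℕ} (h : l ≤ 2 ^ k) :
    l * ((2 ^ (y + 2) + 1) * (P + 1)) ≤ 2 * vol P y k := by
  have h1 : 2 ^ (y + 2) + 1 ≤ 2 * 2 ^ (y + 2) := by
    have : 0 < 2 ^ (y + 2) := by positivity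
    omega
  calc l * ((2 ^ (y + 2) + 1) * (P + 1)) ≤ 2 ^ k * ((2 * 2 ^ (y + 2)) * (P + 1)) :=
        Nat.mul_le_mul h (Nat.mul_le_mul_right _ h1)
    _ = 2 * vol P y k := by unfold vol; ring

theorem tc_childP (hx : TC D T x) (hv : Bud D T (fun a => nvol (x a)))
    (h : ∀ a, D a → Valid (x a)) : TC D T (fun a => childP (x a)) := by
  have hc := (tu_n hx hv).sub (tu_f hx)
  refine tc_mkN (tu_nP hx) (tu_ny hx) ((tu_nk hx).sub (TU.const 1)) (tu_f hx) ?_ ?_
  · exact tc_fwdP (tu_nP hx) (tu_t hx hv) hc (tc_na hx) (fun a => 2 ^ (ny (x a) + 2))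
      (fun a ha => ⟨Nat.sub_le _ _, fun u hu => ((h a ha).sa.2 u hu).le⟩)
      ((hv.const_mul 2).mono (fun a ha => len_mul_le (h a ha).sa.1.le))
  · exact tc_fwdP (tu_nP hx) (tu_t hx hv) hc (tc_nb hx) (fun a => 2 ^ (ny (x a) + 2))
      (fun a ha => ⟨Nat.sub_le _ _, fun u hu => ((h a ha).sb.2 u hu).le⟩)
      ((hv.const_mul 2).mono (fun a ha => len_mul_le (h a ha).sb.1.le))

theorem tc_childM (hx : TC D T x) (hv : Bud D T (fun a => nvol (x a)))
    (h : ∀ a, D a → Valid (x a)) : TC D T (fun a => childM (x a)) := by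
  have hc := (tu_n hx hv).sub (tu_f hx)
  refine tc_mkN (tu_nP hx) (tu_ny hx) ((tu_nk hx).sub (TU.const 1))
    ((tu_f hx).add (tu_n hx hv)) ?_ ?_
  · exact tc_fwdM (tu_nP hx) (tu_t hx hv) hc (tc_na hx) (fun a => 2 ^ (ny (x a) + 2))
      (fun a ha => ⟨Nat.sub_le _ _, fun u hu => ((h a ha).sa.2 u hu).le⟩)
      ((hv.const_mul 2).mono (fun a ha => len_mul_le (h a ha).sa.1.le))
  · exact tc_fwdM (tu_nP hx) (tu_t hx hv) hc (tc_nb hx) (fun a => 2 ^ (ny (x a) + 2))
      (fun a ha => ⟨Nat.sub_le _ _, fun u hu => ((h a ha).sb.2 u hu).le⟩)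
      ((hv.const_mul 2).mono (fun a ha => len_mul_le (h a ha).sb.1.le))

theorem pow_split (y : ℕ) : 2 ^ (y + 2) = 2 ^ ((y + 1) / 2 + 1) * 2 ^ (y / 2 + 1) := by
  rw [← pow_add]; congr 1; omega

theorem Valid.len_a {x : Node} (h : Valid x) (hk : nk x = 0) :
    (na x).flatten.length = 2 ^ (ny x + 2) := by
  rw [h.sa.length_flatten, hk, pow_zero, one_mul]

theorem Valid.len_b {x : Node} (h : Valid x) (hk : nk x = 0) :
    (nb x).flatten.length = 2 ^ (ny x + 2) := by
  rw [h.sb.length_flatten, hk, pow_zero, one_mul]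

theorem tc_childE (hx : TC D T x) (hv : Bud D T (fun a => nvol (x a)))
    (h : ∀ a, D a → Valid (x a) ∧ nk (x a) = 0) : TC D T (fun a => childE (x a)) := by
  refine tc_mkN (tu_nP hx) ((tu_ny hx).div (TU.const 2))
    ((((tu_ny hx).add (TU.const 1)).div (TU.const 2)).add (TU.const 1))
    (TU.twoPow (((tu_ny hx).div (TU.const 2)).add (TU.const 2)) (hv.mono (fun a _ =>
      (Nat.pow_le_pow_right (by norm_num) (by omega)).trans (pow_le_vol _ _ _)))) ?_ ?_
  · exact tc_emb (tu_B hx hv) (tc_na hx).flatten (fun a => 2 ^ ((ny (x a) + 1) / 2 + 1))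
      (fun a ha => ⟨by positivity, by rw [(h a ha).1.len_a (h a ha).2, pow_split]⟩)
  · exact tc_emb (tu_B hx hv) (tc_nb hx).flatten (fun a => 2 ^ ((ny (x a) + 1) / 2 + 1))
      (fun a ha => ⟨by positivity, by rw [(h a ha).1.len_b (h a ha).2, pow_split]⟩)

end tc

theorem nvol_le_locIn (g : ℕ → ℕ) (x : Node) : nvol x ≤ locIn g x := by
  unfold locIn
  split_ifs
  · exact Nat.le_mul_of_pos_right _ (by omega)
  · exact le_rfl

theorem tc_stepIn {g : ℕ → ℕ} (hg : Monotone g) (hm : MulTC g) : TC Valid (locIn g) stepIn := by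
  have hv : ∀ {D : Dom Node}, Bud D (locIn g) (fun a => nvol a) :=
    Bud.self.mono (fun x _ => nvol_le_locIn g x)
  refine TC.ite' (tu_nk TC.id).decide_eq_zero (TC.ite' (tu_ny TC.id).decide_eq_zero ?_ ?_) ?_
  · refine TC.inr (TC.singleton (tc_school g hg hm (tu_nP TC.id) (tc_na TC.id).flatten
      (tc_nb TC.id).flatten (fun x hx => ⟨hx.1.1.ba.flatten, hx.1.1.bb.flatten, ?_⟩)
      (Bud.self.mono (fun x hx => ?_))))
    · rw [hx.1.1.len_b hx.1.2, hx.2]; rfl
    · rw [locIn, if_pos ⟨hx.1.2, hx.2⟩]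
      exact Nat.mul_le_mul_right _ (P_le_vol _ _ _)
  · exact TC.inl ((TC.id.prodMk (TC.const none)).prodMk (tc_childE TC.id hv (fun x hx => hx.1)))
  · exact TC.inl ((TC.id.prodMk (TC.const none)).prodMk (tc_childP TC.id hv (fun x hx => hx.1)))

theorem tc_stepOut : TC OutOK (fun p => nvol p.1.1) stepOut := by
  refine TC.optionCases' TC.id.fst.snd ?_ ?_
  · have hx : ∀ {D : Dom (Frame × LL)}, TC D (fun p => nvol p.1.1) (fun p => p.1.1) :=
      TC.id.fst.fst
    refine TC.ite' (tu_nk hx).decide_eq_zero ?_ ?_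
    · refine TC.inr (TC.singleton (tc_unemb (tu_nP hx) (tu_B hx Bud.self)
        ((tu_n hx Bud.self).sub (tu_B hx Bud.self)) TC.id.snd (fun p hp w hw => ?_)
        ((Bud.self.const_mul 2).mono (fun p hp => ?_))))
      · rw [(hp.1.1.2.1 hp.2).2 w hw]
        exact Nat.pow_le_pow_right (by norm_num) (by omega)
      · rw [(hp.1.1.2.1 hp.2).length_flatten, nvol, hp.2, ← vol_emb, vol, mul_assoc]
    · exact TC.inl ((hx.prodMk TC.id.snd.some).prodMk
        (tc_childM hx Bud.self (fun p hp => hp.1.1.1)))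
  · have hx : ∀ {D : Dom ((Frame × LL) × LL)}, TC D (fun p => nvol p.1.1.1) (fun p => p.1.1.1) :=
      TC.id.fst.fst.fst
    exact TC.inr (tc_join (tu_nP hx) (tu_f hx) TC.id.snd TC.id.fst.snd
      (fun p => 2 ^ (ny p.1.1.1 + 2))
      (fun p hp => ⟨by have := hp.1.1.ele; omega, (hp.1.2.2 _ hp.2).2⟩)
      ((Bud.self.const_mul 2).mono (fun p hp => len_mul_le (hp.1.2.2 _ hp.2).1)))

/-- the domain of the transition function -/
def StepOK : Node ⊕ (Frame × LL) → Prop := Sum.elim Valid OutOK

/-- the cost of the transition function -/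
def stepCost (g : ℕ → ℕ) : Node ⊕ (Frame × LL) → ℕ := Sum.elim (locIn g) (fun p => nvol p.1.1)

theorem tc_step {g : ℕ → ℕ} (hg : Monotone g) (hm : MulTC g) : TC StepOK (stepCost g) step :=
  TC.sumElim (tc_stepIn hg hm) tc_stepOut

/-! ### the run of the recursion -/

theorem Valid.sz_le {x : Node} (h : Valid x) : sz x ≤ 30 * nvol x := by
  have ha := h.sa.sz_le h.ba (by positivity)
  have hb := h.sb.sz_le h.bb (by positivity)
  have he := h.ele
  obtain ⟨P, y, k, e, a, b, rfl⟩ := exists_mkN x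
  have h1 := pow_le_vol P y k
  have h2 := P_le_vol P y k
  have h3 := y_le_vol P y k
  have h4 := k_le_vol P y k
  simp only [nP_mkN, ny_mkN, nk_mkN, ne_mkN, na_mkN, nb_mkN, nvol] at *
  change _ ≤ 5 * vol P y k at ha hb
  simp only [mkN, sz_prod, sz_un]
  omega

theorem Valid.shape_nval {x : Node} (h : Valid x) :
    Shape (2 ^ nk x) (2 ^ (ny x + 2)) (nval x) :=
  (nuss_spec _ _ _ _ _ _ h.sa h.sb h.dvd h.kle h.ele).1

theorem Valid.sz_nval {x : Node} (h : Valid x) : sz (nval x) ≤ 5 * nvol x :=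
  h.shape_nval.sz_le (bd2_nuss _ _ _ _ _ _) (by positivity)

theorem Valid.childE {x : Node} (h : Valid x) (hk : nk x = 0) : Valid (childE x) := by
  have hBB : 2 ^ (ny x / 2 + 2) = 2 ^ (ny x / 2 + 1) + 2 ^ (ny x / 2 + 1) := by ring
  refine ⟨?_, ?_, h.ba.flatten.emb _ _, h.bb.flatten.emb _ _, ?_, ?_, ?_⟩ <;>
    simp only [Mul.childE, ny_mkN, nk_mkN, ne_mkN, na_mkN, nb_mkN]
  · rw [hBB]; exact shape_emb (by rw [h.len_a hk, pow_split])
  · rw [hBB]; exact shape_emb (by rw [h.len_b hk, pow_split])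
  · exact pow_dvd_pow 2 (by omega)
  · omega
  · omega

theorem Valid.half {x : Node} (h : Valid x) {k : ℕ} (hk : nk x = k + 1) : 2 ^ k ∣ ne x / 2 := by
  have he := h.dvd
  rw [hk, pow_succ'] at he
  obtain ⟨c, hc⟩ := he
  rw [hc, mul_assoc, Nat.mul_div_cancel_left _ (by norm_num)]
  exact dvd_mul_right _ _

theorem Valid.childP {x : Node} (h : Valid x) {k : ℕ} (hk : nk x = k + 1) :
    Valid (childP x) := by
  have htt : 2 ^ (k + 1) = 2 ^ k + 2 ^ k := by ring
  have h1 := h.sa
  have h2 := h.sb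
  have h3 := h.kle
  have h4 := h.ele
  rw [hk, htt] at h1 h2
  refine ⟨?_, ?_, bd2_fwdP _ _ _ _, bd2_fwdP _ _ _ _, ?_, ?_, ?_⟩ <;>
    simp only [Mul.childP, ny_mkN, nk_mkN, ne_mkN, na_mkN, nb_mkN, hk, Nat.add_sub_cancel]
  · exact h1.fwdP
  · exact h2.fwdP
  · exact h.half hk
  · omega
  · omega

theorem Valid.childM {x : Node} (h : Valid x) {k : ℕ} (hk : nk x = k + 1) :
    Valid (childM x) := by
  have htt : 2 ^ (k + 1) = 2 ^ k + 2 ^ k := by ring
  have h1 := h.sa
  have h2 := h.sb
  have h3 := h.kle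
  have h4 := h.ele
  rw [hk, htt] at h1 h2
  refine ⟨?_, ?_, bd2_fwdM _ _ _ _, bd2_fwdM _ _ _ _, ?_, ?_, ?_⟩ <;>
    simp only [Mul.childM, ny_mkN, nk_mkN, ne_mkN, na_mkN, nb_mkN, hk, Nat.add_sub_cancel]
  · exact h1.fwdM
  · exact h2.fwdM
  · exact dvd_add (h.half hk) (pow_dvd_pow 2 (by omega))
  · omega
  · omega

theorem recRun_nuss (g : ℕ → ℕ) (P y : ℕ) : ∀ (k : ℕ) (x : Node), Valid x → nP x = P →
    ny x = y → nk x = k → ∃ n, RecRun step StepOK (stepCost g) (Sum.inl x) (nval x) n ∧
      n ≤ 400 * tot (g (2 * P)) P y k := by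
  induction y using Nat.strong_induction_on with
  | _ y ihy =>
  intro k
  induction k with
  | zero =>
    intro x hx hP hy hk
    have hsz := hx.sz_le
    have hvol : nvol x = vol P y 0 := by rw [nvol, hP, hy, hk]
    have hpos := vol_pos P y 0
    by_cases hy0 : y = 0
    · have hv : nval x = [school (nP x) (na x).flatten (nb x).flatten] := by
        rw [nval, hk, hy, hy0, nuss_zero_zero]
      refine ⟨_, RecRun.ret (a := Sum.inl x) hx ?_, ?_⟩
      · simp [step, stepIn, hk, hy, hy0, hv]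
      · have h1 := tot_base (g (2 * P)) P
        have h2 : vol P 0 0 ≤ vol P 0 0 * (g (2 * P) + 1) := Nat.le_mul_of_pos_right _ (by omega)
        simp only [stepCost, Sum.elim_inl, locIn, hk, hy, hy0, and_self, if_true, sz_inl, hvol,
          hP] at *
        omega
    · have hc := hx.childE hk
      obtain ⟨n₁, hr, hn₁⟩ := ihy (y / 2) (by omega) ((y + 1) / 2 + 1) (childE x) hc hP
        (by rw [← hy]; rfl) (by rw [← hy]; rfl)
      have hv : nval x = [unemb (nP x) (2 ^ (ny x / 2 + 1))
          (2 ^ (ny x + 2) - 2 ^ (ny x / 2 + 1)) (nval (childE x))] := by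
        rw [nval, hk, nuss_pos_zero _ (hy ▸ hy0)]
        rfl
      have hs := hc.sz_nval
      have hvc : nvol (childE x) = 2 * vol P y 0 := by
        rw [← vol_emb, ← hP, ← hy]; rfl
      refine ⟨_, RecRun.call (a := Sum.inl x) (k := (x, none)) hx ?_ hr
        (RecRun.ret (a := Sum.inr ((x, none), nval (childE x)))
          ⟨hx, fun _ => hc.shape_nval, fun u hu => by simp at hu⟩ ?_), ?_⟩
      · simp [step, stepIn, hk, hy, hy0]
      · simp [step, stepOut, stepFst, hk, hv]
      · have h1 := tot_emb (g (2 * P)) P hy0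
        simp only [stepCost, Sum.elim_inl, Sum.elim_inr, locIn, hy, hy0, and_false, if_false,
          sz_inl, sz_inr, sz_prod (α := Frame), sz_prod (α := Node), sz_none, hvol, hvc] at *
        omega
  | succ k ihk =>
    intro x hx hP hy hk
    have hsz := hx.sz_le
    have hvol : nvol x = 2 * vol P y k := by rw [nvol, hP, hy, hk, vol_succ]
    have hpos := vol_pos P y k
    have hk0 : nk x ≠ 0 := by omega
    have hc := hx.childP hk
    have hc' := hx.childM hk
    have hkP : nk (childP x) = k := by simp [childP, hk]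
    have hkM : nk (childM x) = k := by simp [childM, hk]
    obtain ⟨n₁, hr, hn₁⟩ := ihk (childP x) hc hP hy hkP
    obtain ⟨n₂, hr', hn₂⟩ := ihk (childM x) hc' hP hy hkM
    have hv : nval x = join (nP x) (ne x / 2) (nval (childP x)) (nval (childM x)) := by
      rw [nval, hk, nuss_succ]
      simp [nval, childP, childM, hk]
    have hs := hc.sz_nval
    have hs' := hc'.sz_nval
    have hvc : nvol (childP x) = vol P y k := by rw [nvol, hkP, ← hP, ← hy]; rfl
    have hvc' : nvol (childM x) = vol P y k := by rw [nvol, hkM, ← hP, ← hy]; rfl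
    have hsh := hc.shape_nval
    refine ⟨_, RecRun.call (a := Sum.inl x) (k := (x, none)) hx ?_ hr
      (RecRun.call (a := Sum.inr ((x, none), nval (childP x))) (k := (x, some (nval (childP x))))
        ⟨hx, fun h => absurd h hk0, fun u hu => by simp at hu⟩ ?_ hr'
        (RecRun.ret (a := Sum.inr ((x, some (nval (childP x))), nval (childM x)))
          ⟨hx, fun h => absurd h hk0, fun u hu => ?_⟩ ?_)), ?_⟩
    · simp [step, stepIn, hk0]
    · simp [step, stepOut, stepFst, hk0]
    · obtain rfl : nval (childP x) = u := by simpa using hu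
      refine ⟨?_, fun w hw => (hsh.2 w hw).le⟩
      rw [hsh.1, hkP]
      exact Nat.pow_le_pow_right (by norm_num) (by change k ≤ nk x; omega)
    · simp [step, stepOut, hv]
    · have h1 := tot_succ (g (2 * P)) P y k
      rw [vol_succ] at h1
      simp only [stepCost, Sum.elim_inl, Sum.elim_inr, locIn, hk0, false_and, if_false,
        sz_inl, sz_inr, sz_prod (α := Frame), sz_prod (α := Node), sz_none, sz_some, hvol, hvc,
        hvc'] at *
      omega

/-- the whole recursion -/
theorem tc_nval {g : ℕ → ℕ} (hg : Monotone g) (hm : MulTC g) :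
    TC Valid (fun x => tot (g (2 * nP x)) (nP x) (ny x) (nk x)) nval := by
  refine TC.recRun (tc_step hg hm) 400 (fun x hx => ?_)
  obtain ⟨n, hr, hn⟩ := recRun_nuss g _ _ _ x hx rfl rfl rfl
  exact ⟨n, hr, hn.trans (Nat.mul_le_mul_left _ (by omega))⟩

/-- **Running time of the negacyclic product**, compositional form. -/
theorem tc_nmul' {g : ℕ → ℕ} (hg : Monotone g) (hm : MulTC g) {α : Type} [PTCode α] {D : Dom α}
    {T : Cost α} {P y : α → ℕ} {a b : α → List ℕ} (hP : TU D T P) (hy : TU D T y)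
    (ha : TC D T a) (hb : TC D T b)
    (h : ∀ x, D x → (a x).length = 2 ^ (y x + 2) ∧ (b x).length = 2 ^ (y x + 2) ∧
      Bd (P x) (a x) ∧ Bd (P x) (b x))
    (hT : Bud D T (fun x => 2 ^ (y x + 2) * (P x + 1) *
      (2 ^ (y x).size * (g (2 * P x) + (y x).size + 1)))) :
    TC D T (fun x => nmul (P x) (y x) (a x) (b x)) := by
  have h1 : TC D T (fun x => mkN (P x) (y x) 0 0 [a x] [b x]) :=
    tc_mkN hP hy (TU.const 0) (TU.const 0) ha.singleton hb.singleton
  refine ((tc_nval hg hm).comp h1 (fun x hx => ?_)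
    ((hT.const_mul 10).mono (fun x _ => tot_zero_le _ _ _))).flatten
  obtain ⟨h1, h2, h3, h4⟩ := h x hx
  exact ⟨Shape.singleton h1, Shape.singleton h2, Bd2.singleton h3, Bd2.singleton h4, by simp,
    by simp, by simp⟩


end Crest.Agent.X326.Mul
end

-- ▼ part X326/TC/Kron
section

/-!
# Kronecker substitution in linear time

* `packW k l`    : the low `k` bits of all entries, concatenated (`= Nat.ofDigits (2 ^ k) l` for
  entries below `2 ^ k`).
* `unpackW k K n`: the first `K` digits of `n` in base `2 ^ k`.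
* `TC.ofDigitsTwoPow` : evaluation `Nat.ofDigits (2 ^ b) l` for entries of arbitrary size
  (carry propagation).
-/

set_option autoImplicit false
set_option linter.dupNamespace false

namespace Crest.Agent.X326

open Crest.Agent.Lib.PT Function






/-- the first `K` digits in base `2 ^ k` -/
def unpackW (k K n : ℕ) : List ℕ := (List.range K).map (fun i => n / 2 ^ (k * i) % 2 ^ k)

@[simp] theorem length_unpackW (k K n : ℕ) : (unpackW k K n).length = K := by simp [unpackW]






theorem unpackW_eq_chunks {k : ℕ} (hk : 0 < k) (K n : ℕ) :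
    unpackW k K n = (chunks k (bitsW (K * k) n)).map lsb := by
  rw [chunks_eq_range (m := K) hk (by simp), List.map_map]
  refine List.map_congr_left fun i hi => ?_
  have hi' : i < K := List.mem_range.1 hi
  obtain ⟨j, rfl⟩ := Nat.exists_eq_add_of_lt hi'
  rw [Function.comp_apply, lsb_take, lsb_drop, lsb_bitsW,
    show (i + j + 1) * k = i * k + (k + j * k) by ring, pow_add, Nat.mod_mul_right_div_self,
    pow_add, Nat.mod_mul_right_mod, mul_comm k i]

/-- carry propagation: state `(b, carry)` -/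
def carryStep (q : (Un × ℕ) × ℕ) : (Un × ℕ) × List Bool :=
  ((q.1.1, (q.1.2 + q.2) / 2 ^ q.1.1.val), bitsW q.1.1.val (q.1.2 + q.2))

theorem accumL_carry (b c : ℕ) (l : List ℕ) :
    lsb ((accumL carryStep (⟨b⟩, c) l).2 ++ (accumL carryStep (⟨b⟩, c) l).1.2.bits) =
      c + Nat.ofDigits (2 ^ b) l := by
  induction l generalizing c with
  | nil => simp
  | cons a l ih =>
    rw [accumL_cons]
    simp only [carryStep, List.append_assoc]
    rw [lsb_append, ih, lsb_bitsW, length_bitsW, Nat.ofDigits_cons, mul_add, ← add_assoc,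
      Nat.mod_add_div, add_assoc]

variable {α : Type} [PTCode α] {P : α → Prop} {T : α → ℕ}



theorem TC.unpackW {k K n : α → ℕ} (hk : TU P T k) (hK : TU P T K) (hn : TC P T n)
    (hB : Bud P T (fun x => K x * k x)) : TC P T (fun x => unpackW (k x) (K x) (n x)) := by
  have h1 : Lin (fun l : List Bool => X326.lsb l) := TC.lsb TC.id
  have h2 := TC.map h1 (TC.chunks hk (TC.bitsW (hK.mul hk hB) hn))
  refine (TC.ite (TP.eqU hk (TU.const 0)) (TC.replicate_const 0 hK) h2).of_eq (fun x => ?_)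
  split_ifs with h0
  · unfold X326.unpackW
    rw [h0]
    simp [Nat.mod_one]
  · exact (unpackW_eq_chunks (Nat.pos_of_ne_zero h0) _ _).symm

theorem lin_carryStep : Lin carryStep := by
  have hb : LinU (fun q : (Un × ℕ) × ℕ => q.1.1.val) := TU.val TC.id.fst.fst
  have hs : Lin (fun q : (Un × ℕ) × ℕ => q.1.2 + q.2) := TC.id.fst.snd.natAdd TC.id.snd
  exact (TC.id.fst.fst.prodMk (hs.natDivTwoPow hb)).prodMk (TC.bitsW hb hs)

/-- evaluation of a digit list with entries below `2 ^ w` at `2 ^ b`, `1 ≤ b` -/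
theorem TC.ofDigitsTwoPow {b : α → ℕ} {l : α → List ℕ} (w : α → ℕ) (hb : TU P T b)
    (hl : TC P T l) (h : ∀ x, P x → 1 ≤ b x ∧ ∀ c ∈ l x, c < 2 ^ w x)
    (hB : Bud P T (fun x => (l x).length * (b x + w x))) :
    TC P T (fun x => Nat.ofDigits (2 ^ b x) (l x)) := by
  have h1 := TC.accumL_inv lin_carryStep (s := fun x => (Un.mk (b x), 0)) (hb.tc.prodMk (TC.const 0))
    hl (fun x t r => t.1.val = b x ∧ t.2 < 2 ^ w x ∧ ∀ c ∈ r, c < 2 ^ w x)
    (fun x _ => 2 * (b x + w x) + 1)
    (fun x hx => ⟨rfl, by positivity, (h x hx).2⟩)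
    (fun x hx t a r ht => by
      obtain ⟨e1, e2, e3⟩ := ht
      refine ⟨trivial, ?_, e1, ?_, fun c hc => e3 c (by simp [hc])⟩
      · have := sz_le_of_lt_two_pow e2
        rw [sz_prod, sz_un, e1]
        omega
      · have e4 := e3 a (by simp)
        have e5 : 2 ^ 1 ≤ 2 ^ b x := Nat.pow_le_pow_right (by norm_num) (h x hx).1
        show (t.2 + a) / 2 ^ t.1.val < 2 ^ w x
        rw [e1, Nat.div_lt_iff_lt_mul (by positivity)]
        nlinarith)
    (((hB.const_mul 2).add hl.bud_length).mono (fun x _ => by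
      simp only [List.map_const', List.sum_replicate, smul_eq_mul]
      ring_nf
      omega))
  refine (h1.snd.append h1.fst.snd.natBits).lsb.of_eq (fun x => ?_)
  rw [accumL_carry, zero_add]

end Crest.Agent.X326
end

-- ▼ part X326/Mul/Boost

/-!
# The base multiplier: from negacyclic products to convolutions and to integer products

* `tc_conv_of`  : the exact convolution at cost `convCost g` from `MulTC g`,
* `mulTC_boost` : `MulTC g → MulTC (boost g)`,
* `mulTC_g1`, `mulTC_g2` : products at cost `log ^ 2` and `log * (log log) ^ 2` per bit,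
* `tc_conv`     : the exact convolution at cost `cmu`; `tc_natMul` : the fast product.
-/

set_option autoImplicit false

namespace Crest.Agent.X326.Mul

open Crest.Agent.Lib.PT

section

variable {α : Type} [PTCode α] {D : Dom α} {T : Cost α}

theorem MulTC.mono {g g' : ℕ → ℕ} (h : MulTC g) (C : ℕ) (hC : ∀ m, g m ≤ C * g' m) :
    MulTC g' :=
  TC.budget h (Bud.of_le_mul C (fun q _ => by
    calc _ ≤ (q.1.size + q.2.size + 1) * (C * g' (q.1.size + q.2.size)) :=
          Nat.mul_le_mul_left _ (hC _)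
      _ = _ := by ring))

theorem tc_digs {b K n : α → ℕ} (hb : TU D T b) (hK : TU D T K) (hn : TC D T n)
    (hB : Bud D T (fun x => K x * b x)) : TC D T (fun x => digs (b x) (K x) (n x)) :=
  TC.unpackW hb hK hn hB

theorem tc_ev {b : α → ℕ} {l : α → List ℕ} (w : α → ℕ) (hb : TU D T b) (hl : TC D T l)
    (h : ∀ x, D x → 1 ≤ b x ∧ Bd (w x) (l x))
    (hB : Bud D T (fun x => (l x).length * (b x + w x))) :
    TC D T (fun x => ev (2 ^ b x) (l x)) :=
  (TC.ofDigitsTwoPow w hb hl h hB).of_eq (fun _ => (ev_eq_ofDigits _ _).symm)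

/-- the width of a list, in unary -/
theorem tu_wid {l : α → List ℕ} (hl : TC D T l)
    (hb : Bud D T (fun x => (l x).length * wid (l x))) : TU D T (fun x => wid (l x)) := by
  have h1 : Lin (fun q : Un × ℕ => Un.mk (max q.1.val q.2.size)) :=
    TU.max (TU.val TC.id.fst) (TU.size TC.id.snd)
  have h2 := TC.foldl_inv (f := fun (s : Un) (c : ℕ) => Un.mk (max s.val c.size)) h1
    (TC.const (Un.mk 0)) hl (fun x t => t.val ≤ wid (l x)) (fun x _ => wid (l x))
    (fun x _ => Nat.zero_le _)
    (fun x _ t a ha ht => ⟨trivial, by simpa using ht, max_le ht (size_le_wid ha)⟩)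
    (hb.mono (fun x _ => by simp))
  refine TC.of_eq h2 (fun x => ?_)
  show _ = Un.mk ((l x).foldl (fun m c => max m c.size) 0)
  generalize 0 = m
  induction l x generalizing m with
  | nil => rfl
  | cons c r ih => exact ih _

/-- the exact convolution, compositional form with the width given in unary -/
theorem tc_conv_tu {g : ℕ → ℕ} (hg : Monotone g) (hm : MulTC g)
    {a b : α → List ℕ} {p : α → ℕ} (ha : TC D T a) (hb : TC D T b) (hp : TU D T p)
    (h : ∀ x, D x → Bd (p x) (a x) ∧ Bd (p x) (b x))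
    (hT : Bud D T (fun x => convCost g ((a x).length + (b x).length) (p x))) :
    TC D T (fun x => conv (a x) (b x)) := by
  have hn : TU D T (fun x => (a x).length + (b x).length) := (TU.length ha).add (TU.length hb)
  have hy : TU D T (fun x => ((a x).length + (b x).length).size) := TU.size hn.toNat
  have hP : TU D T (fun x => 2 * p x + 3 * ((a x).length + (b x).length).size + 2) :=
    ((hp.const_mul 2).add (hy.const_mul 3)).add (TU.const 2)
  have hN2 : TU D T (fun x => 2 ^ (((a x).length + (b x).length).size + 2)) :=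
    TU.twoPow (hy.add (TU.const 2)) (((hn.bud.const_mul 8).add (Bud.const 4)).mono (fun x _ => by
      have := two_pow_size_le ((a x).length + (b x).length)
      rw [pow_add]
      omega))
  have hle : ∀ x, (a x).length + (b x).length ≤ 2 ^ (((a x).length + (b x).length).size + 2) := by
    intro x
    have := Nat.lt_size_self ((a x).length + (b x).length)
    rw [pow_add]
    omega
  have h1 := tc_nmul' hg hm hP hy
    (ha.append (TC.replicate_const 0 (hN2.sub (TU.length ha))))
    (hb.append (TC.replicate_const 0 (hN2.sub (TU.length hb))))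
    (fun x hx => by
      have := hle x
      refine ⟨by simp; omega, by simp; omega, ?_, ?_⟩
      · exact ((h x hx).1.mono (by omega)).append (Bd.replicate_zero _ _)
      · exact ((h x hx).2.mono (by omega)).append (Bd.replicate_zero _ _))
    ((hT.const_mul 48).mono (fun x _ => nmul_cost_le hg _ _))
  have hs : TU D T (fun x => scl ((a x).length + (b x).length).size) :=
    hy.add (TU.size hy.toNat)
  have h2 := TC.mapCtx_lin (f := fun (k : Un) (c : ℕ) => c / 2 ^ k.val)
    (TC.natDivTwoPow TC.id.snd (TU.val TC.id.fst)) hs (TC.take hn h1)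
    ((hT.const_mul 2).mono (fun x _ => by
      have h3 := vol_le_convCost g ((a x).length + (b x).length) (p x)
      have h4 := scl_le ((a x).length + (b x).length).size
      rw [sz_un]
      calc _ ≤ ((a x).length + (b x).length + 1) *
            (2 * (p x + ((a x).length + (b x).length).size + 1)) :=
            Nat.mul_le_mul ((List.length_take_le _ _).trans (Nat.le_succ _)) (by
              show scl _ ≤ _
              omega)
        _ = 2 * (((a x).length + (b x).length + 1) *
            (p x + ((a x).length + (b x).length).size + 1)) := by ring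
        _ ≤ _ := Nat.mul_le_mul_left 2 h3))
  refine h2.congr (fun x hx => ?_)
  have h4 := scl_le ((a x).length + (b x).length).size
  exact (conv_eq (hle x) (h x hx).1 (h x hx).2 (by omega)).symm

/-- the exact convolution, compositional form: `n` bounds the total length, `p` the width -/
theorem tc_conv_of {g : ℕ → ℕ} (hg : Monotone g) (hm : MulTC g)
    {a b : α → List ℕ} (ha : TC D T a) (hb : TC D T b) (n p : α → ℕ)
    (h : ∀ x, D x → (a x).length + (b x).length ≤ n x ∧ Bd (p x) (a x) ∧ Bd (p x) (b x))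
    (hT : Bud D T (fun x => convCost g (n x) (p x))) :
    TC D T (fun x => conv (a x) (b x)) := by
  have hv : ∀ {l : α → List ℕ}, (∀ x, D x → (l x).length ≤ n x ∧ Bd (p x) (l x)) →
      Bud D T (fun x => (l x).length * wid (l x)) := by
    intro l hl
    refine hT.mono (fun x hx => le_trans ?_ (vol_le_convCost g _ _))
    have h1 := wid_le (hl x hx).2
    have h2 := (hl x hx).1
    exact Nat.mul_le_mul (by omega) (by omega)
  have hwa := tu_wid ha (hv (fun x hx => ⟨by have := (h x hx).1; omega, (h x hx).2.1⟩))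
  have hwb := tu_wid hb (hv (fun x hx => ⟨by have := (h x hx).1; omega, (h x hx).2.2⟩))
  exact tc_conv_tu hg hm ha hb (hwa.max hwb)
    (fun x _ => ⟨(bd_wid _).mono (le_max_left _ _), (bd_wid _).mono (le_max_right _ _)⟩)
    (hT.mono (fun x hx => convCost_mono hg (h x hx).1
      (max_le (wid_le (h x hx).2.1) (wid_le (h x hx).2.2))))

/-- **one round of boosting** -/
theorem mulTC_boost {g : ℕ → ℕ} (hg : Monotone g) (hm : MulTC g) : MulTC (boost g) := by
  unfold MulTC
  set T : ℕ × ℕ → ℕ :=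
    fun q => (q.1.size + q.2.size + 1) * boost g (q.1.size + q.2.size) with hT
  have hm' : TU (fun _ => True) T (fun q : ℕ × ℕ => q.1.size + q.2.size) :=
    (TU.size TC.id.fst).add (TU.size TC.id.snd)
  have hb : TU (fun _ => True) T (fun q : ℕ × ℕ => (q.1.size + q.2.size).size + 1) :=
    (TU.size hm'.toNat).add (TU.const 1)
  have hK : TU (fun _ => True) T (fun q : ℕ × ℕ => nd (q.1.size + q.2.size)) :=
    (hm'.div hb).add (TU.const 1)
  have hKb : Bud (fun _ => True) T
      (fun q : ℕ × ℕ => nd (q.1.size + q.2.size) * ((q.1.size + q.2.size).size + 1)) :=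
    ((hm'.bud.const_mul 2).add (Bud.const 1)).mono (fun q _ => nd_mul_le _)
  have h1 := tc_digs hb hK TC.id.fst hKb
  have h2 := tc_digs hb hK TC.id.snd hKb
  have h3 := tc_conv_tu hg hm h1 h2 hb (fun _ _ => ⟨bd_digs _ _ _, bd_digs _ _ _⟩)
    (Bud.of_le_mul 216 (fun q _ => by
      simp only [length_digs]
      exact convCost_nd hg _))
  have h4 := tc_ev (fun q => (q.1.size + q.2.size).size + 1 +
      ((q.1.size + q.2.size).size + 1) + ((q.1.size + q.2.size).size + 1)) hb h3
    (fun q _ => ⟨Nat.succ_pos _, conv_bd (bd_digs _ _ _) (bd_digs _ _ _)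
      (by rw [length_digs]; exact nd_le_two_pow _)⟩)
    ((hKb.const_mul 10).mono (fun q _ => by
      simp only [length_conv, length_digs]
      calc _ ≤ (2 * nd (q.1.size + q.2.size)) * (5 * ((q.1.size + q.2.size).size + 1)) :=
            Nat.mul_le_mul (by omega) (by omega)
        _ = _ := by ring))
  refine h4.of_eq (fun q => ev_conv_digs ?_ ?_)
  · refine (Nat.lt_size_self _).trans_le (Nat.pow_le_pow_right (by norm_num) ?_)
    exact (Nat.le_add_right _ _).trans (le_mul_nd _)
  · refine (Nat.lt_size_self _).trans_le (Nat.pow_le_pow_right (by norm_num) ?_)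
    exact (Nat.le_add_left _ _).trans (le_mul_nd _)

theorem mulTC_id : MulTC (fun m => m) := tc_mulSchool'

/-- products at cost `(log m) ^ 2` per bit -/
theorem mulTC_g1 : MulTC g1 := (mulTC_boost monotone_id mulTC_id).mono 25 boost_id_le


/-- **the exact convolution**: `n` bounds both lengths, `p` the width of the entries -/
theorem tc_conv {a b : α → List ℕ} (ha : TC D T a) (hb : TC D T b) (n p : α → ℕ)
    (h : ∀ x, D x → (a x).length ≤ n x ∧ (b x).length ≤ n x ∧ Bd (p x) (a x) ∧ Bd (p x) (b x))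
    (hT : Bud D T (fun x => cmu (n x) (p x))) : TC D T (fun x => conv (a x) (b x)) :=
  tc_conv_of g1_mono mulTC_g1 ha hb (fun x => 2 * n x) p
    (fun x hx => by
      obtain ⟨h1, h2, h3⟩ := h x hx
      exact ⟨by omega, h3⟩)
    (((hT.const_mul 32).const_mul 68).mono (fun x _ =>
      (convCost_g1_le _ _).trans (Nat.mul_le_mul_left _ (cmu_two_mul _ _))))

/-- the cost of the convolution read off the data -/
def convT (q : List ℕ × List ℕ) : ℕ :=
  cmu (max q.1.length q.2.length) (max (wid q.1) (wid q.2))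

theorem convT_le {r p : ℕ} {a b : List ℕ} (ha : a.length ≤ r) (hb : b.length ≤ r) (ha' : Bd p a)
    (hb' : Bd p b) : convT (a, b) ≤ cmu r p :=
  cmu_mono (max_le ha hb) (max_le (wid_le ha') (wid_le hb'))

/-- the exact convolution as a total function -/
theorem tc_conv_total : TC (fun _ => True) convT (fun q : List ℕ × List ℕ => conv q.1 q.2) :=
  tc_conv TC.id.fst TC.id.snd _ _
    (fun _ _ => ⟨le_max_left _ _, le_max_right _ _, (bd_wid _).mono (le_max_left _ _),
      (bd_wid _).mono (le_max_right _ _)⟩) Bud.self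


end

end Crest.Agent.X326.Mul
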